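import Vale.Agent.P238.Defs

namespace Vale.Agent.P238

open List

variable {α β : Type}

theorem Step.symm {x y : List α} (h : Step x y) : Step y x := by
  cases h with
  | ins p s a => exact Step.del p s a
  | del p s a => exact Step.ins p s a
  | sub p s a b => exact Step.sub p s b a

theorem Edits.trans {j k : ℕ} {x y z : List α} (h1 : Edits j x y) (h2 : Edits k y z) :
    Edits (j + k) x z := by
  induction h1 with
  | refl x => simpa using h2
  | @step j x y w hs _ ih =>
    have := Edits.step hs (ih h2)
    rwa [show j + k + 1 = j + 1 + k by ring] at this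

theorem Edits.single {x y : List α} (h : Step x y) : Edits 1 x y :=
  Edits.step h (Edits.refl y)

theorem Edits.symm {k : ℕ} {x y : List α} (h : Edits k x y) : Edits k y x := by
  induction h with
  | refl x => exact Edits.refl x
  | step hs _ ih => exact ih.trans (Edits.single hs.symm)

theorem Step.ctx {x y : List α} (h : Step x y) (u v : List α) :
    Step (u ++ x ++ v) (u ++ y ++ v) := by
  cases h with
  | ins p s a => simpa using Step.ins (u ++ p) (s ++ v) a
  | del p s a => simpa using Step.del (u ++ p) (s ++ v) a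
  | sub p s a b => simpa using Step.sub (u ++ p) (s ++ v) a b

theorem Edits.ctx {k : ℕ} {x y : List α} (h : Edits k x y) (u v : List α) :
    Edits k (u ++ x ++ v) (u ++ y ++ v) := by
  induction h with
  | refl x => exact Edits.refl _
  | step hs _ ih => exact Edits.step (hs.ctx u v) ih

theorem edits_to_nil (x : List α) : Edits x.length x [] := by
  induction x with
  | nil => exact Edits.refl _
  | cons a x ih => exact Edits.step (Step.del [] x a) ih

theorem edits_len (x y : List α) : Edits (x.length + y.length) x y :=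
  (edits_to_nil x).trans (edits_to_nil y).symm

theorem ED_le {k : ℕ} {x y : List α} (h : Edits k x y) : ED x y ≤ k :=
  Nat.sInf_le h

theorem edits_ED (x y : List α) : Edits (ED x y) x y :=
  Nat.sInf_mem (s := {k : ℕ | Edits k x y}) ⟨_, edits_len x y⟩

theorem ED_le_len (x y : List α) : ED x y ≤ x.length + y.length := ED_le (edits_len x y)

theorem ED_self (x : List α) : ED x x = 0 := Nat.eq_zero_of_le_zero (ED_le (Edits.refl x))

theorem ED_comm (x y : List α) : ED x y = ED y x :=
  le_antisymm (ED_le (edits_ED y x).symm) (ED_le (edits_ED x y).symm)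

theorem ED_triangle (x y z : List α) : ED x z ≤ ED x y + ED y z :=
  ED_le ((edits_ED x y).trans (edits_ED y z))

theorem eq_of_edits_zero {k : ℕ} {x y : List α} (h : Edits k x y) (hk : k = 0) : x = y := by
  cases h with
  | refl => rfl
  | step _ _ => omega

theorem eq_of_ED_eq_zero {x y : List α} (h : ED x y = 0) : x = y :=
  eq_of_edits_zero (edits_ED x y) h

theorem ED_ctx (x y u v : List α) : ED (u ++ x ++ v) (u ++ y ++ v) ≤ ED x y :=
  ED_le ((edits_ED x y).ctx u v)

theorem ED_append (x y x' y' : List α) : ED (x ++ x') (y ++ y') ≤ ED x y + ED x' y' := by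
  refine (ED_triangle _ (y ++ x') _).trans (add_le_add ?_ ?_)
  · simpa using ED_ctx x y [] x'
  · simpa using ED_ctx x' y' y []

theorem ED_flatMap_range (B B' : ℕ → List α) (n : ℕ) :
    ED ((List.range n).flatMap B) ((List.range n).flatMap B') ≤
      ∑ b ∈ Finset.range n, ED (B b) (B' b) := by
  induction n with
  | zero => simp [ED_self]
  | succ n ih =>
    rw [List.range_succ, List.flatMap_append, List.flatMap_append, Finset.sum_range_succ]
    refine (ED_append _ _ _ _).trans ?_
    simpa using ih

theorem Step.map {x y : List α} (h : Step x y) (f : α → β) : Step (x.map f) (y.map f) := by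
  cases h with
  | ins p s a => simpa using Step.ins (p.map f) (s.map f) (f a)
  | del p s a => simpa using Step.del (p.map f) (s.map f) (f a)
  | sub p s a b => simpa using Step.sub (p.map f) (s.map f) (f a) (f b)

theorem Edits.map {k : ℕ} {x y : List α} (h : Edits k x y) (f : α → β) :
    Edits k (x.map f) (y.map f) := by
  induction h with
  | refl x => exact Edits.refl _
  | step hs _ ih => exact Edits.step (hs.map f) ih

theorem ED_map_le (x y : List α) (f : α → β) : ED (x.map f) (y.map f) ≤ ED x y :=
  ED_le ((edits_ED x y).map f)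

theorem ED_shift (u v w w' : List α) (h : u ++ w' = w ++ v) : ED u v ≤ w'.length + w.length := by
  refine (ED_triangle _ (u ++ w') _).trans (add_le_add ?_ ?_)
  · have := ED_ctx [] w' u []
    have h2 := ED_le_len [] w'
    simp only [append_nil, length_nil, zero_add] at this h2
    omega
  · rw [h]
    have := ED_ctx w [] [] v
    have h2 := ED_le_len w []
    simp only [append_nil, nil_append, length_nil, add_zero] at this h2
    omega

theorem Step.flatMap_le {x y : List α} (h : Step x y) (f : α → List β) (L : ℕ)
    (hf : ∀ a, (f a).length ≤ L) : ED (x.flatMap f) (y.flatMap f) ≤ 2 * L := by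
  cases h with
  | ins p s a =>
    have := ED_ctx [] (f a) (p.flatMap f) (s.flatMap f)
    have h2 := ED_le_len [] (f a)
    have h3 := hf a
    simp only [append_nil, length_nil, zero_add, append_assoc] at this h2
    simp only [flatMap_append, flatMap_cons]
    omega
  | del p s a =>
    have := ED_ctx (f a) [] (p.flatMap f) (s.flatMap f)
    have h2 := ED_le_len (f a) []
    have h3 := hf a
    simp only [append_nil, length_nil, add_zero, append_assoc] at this h2
    simp only [flatMap_append, flatMap_cons]
    omega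
  | sub p s a b =>
    have := ED_ctx (f a) (f b) (p.flatMap f) (s.flatMap f)
    have h2 := ED_le_len (f a) (f b)
    have h3 := hf a
    have h4 := hf b
    simp only [append_assoc] at this h2
    simp only [flatMap_append, flatMap_cons]
    omega

theorem Edits.flatMap_le {k : ℕ} {x y : List α} (h : Edits k x y) (f : α → List β) (L : ℕ)
    (hf : ∀ a, (f a).length ≤ L) : ED (x.flatMap f) (y.flatMap f) ≤ 2 * L * k := by
  induction h with
  | refl x => simp [ED_self]
  | @step k x y z hs _ ih =>
    have := ED_triangle (x.flatMap f) (y.flatMap f) (z.flatMap f)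
    have h2 := hs.flatMap_le f L hf
    rw [Nat.mul_succ]
    omega

theorem ED_flatMap_le (x y : List α) (f : α → List β) (L : ℕ) (hf : ∀ a, (f a).length ≤ L) :
    ED (x.flatMap f) (y.flatMap f) ≤ 2 * L * ED x y :=
  (edits_ED x y).flatMap_le f L hf

/-- A common subsequence of two concatenations of blocks splits along a monotone chain of pairs
of blocks. -/
theorem chain_lemma (B B' : ℕ → List α) (n0 : ℕ) (w : ℕ → ℕ → ℕ)
    (hw : ∀ a < n0, ∀ b < n0, ∀ z, z <+ B a → z <+ B' b → z.length ≤ w a b) :
    ∀ (s n n' : ℕ), n + n' = s → n ≤ n0 → n' ≤ n0 → ∀ z, z <+ (List.range n).flatMap B →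
      z <+ (List.range n').flatMap B' →
      ∃ C : Finset (ℕ × ℕ), (∀ x ∈ C, x.1 < n ∧ x.2 < n') ∧
        (∀ x ∈ C, ∀ y ∈ C, (x.1 ≤ y.1 ∧ x.2 ≤ y.2) ∨ (y.1 ≤ x.1 ∧ y.2 ≤ x.2)) ∧
        z.length ≤ ∑ x ∈ C, w x.1 x.2 := by
  intro s
  induction s using Nat.strong_induction_on with
  | _ s ih =>
  intro n n' hs hn hn' z h1 h2
  rcases n with _ | a
  · refine ⟨∅, by simp, by simp, ?_⟩
    simp at h1
    simp [h1]
  rcases n' with _ | b
  · refine ⟨∅, by simp, by simp, ?_⟩
    simp at h2
    simp [h2]
  have h1' := h1
  have h2' := h2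
  rw [List.range_succ, List.flatMap_append, List.flatMap_singleton,
    List.sublist_append_iff] at h1' h2'
  obtain ⟨z1, z2, e1, hz1, hz2⟩ := h1'
  obtain ⟨z3, z4, e2, hz3, hz4⟩ := h2'
  have key : ∀ (a' b' : ℕ) (u v : List α), a' + b' < s → a' ≤ a + 1 → b' ≤ b + 1 →
      (a' ≤ a ∨ b' ≤ b) → z = u ++ v → u <+ (List.range a').flatMap B →
      u <+ (List.range b').flatMap B' → v <+ B a → v <+ B' b →
      ∃ C : Finset (ℕ × ℕ), (∀ x ∈ C, x.1 < a + 1 ∧ x.2 < b + 1) ∧
        (∀ x ∈ C, ∀ y ∈ C, (x.1 ≤ y.1 ∧ x.2 ≤ y.2) ∨ (y.1 ≤ x.1 ∧ y.2 ≤ x.2)) ∧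
        z.length ≤ ∑ x ∈ C, w x.1 x.2 := by
    intro a' b' u v hlt ha hb hab hz hu1 hu2 hv1 hv2
    obtain ⟨C, hC1, hC2, hC3⟩ := ih (a' + b') hlt a' b' rfl (by omega) (by omega) u hu1 hu2
    have hnot : (a, b) ∉ C := by
      intro h
      have := hC1 _ h
      simp only at this
      omega
    refine ⟨insert (a, b) C, ?_, ?_, ?_⟩
    · intro x hx
      rcases Finset.mem_insert.1 hx with rfl | hx
      · simp
      · have := hC1 x hx
        omega
    · intro x hx y hy
      rcases Finset.mem_insert.1 hx with rfl | hx <;> rcases Finset.mem_insert.1 hy with rfl | hy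
      · simp
      · have := hC1 y hy
        simp only
        omega
      · have := hC1 x hx
        simp only
        omega
      · exact hC2 x hx y hy
    · rw [Finset.sum_insert hnot, hz, List.length_append]
      have := hw a (by omega) b (by omega) v hv1 hv2
      simp only
      omega
  have e3 : z1 ++ z2 = z3 ++ z4 := e1.symm.trans e2
  rcases List.append_eq_append_iff.1 e3 with ⟨u, hu1, hu2⟩ | ⟨u, hu1, hu2⟩
  · refine key (a + 1) b z3 z4 (by omega) le_rfl (by omega) (Or.inr le_rfl) e2 ?_ hz3 ?_ hz4
    · exact (e2 ▸ List.sublist_append_left z3 z4).trans h1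
    · exact (hu2 ▸ List.sublist_append_right u z4).trans hz2
  · refine key a (b + 1) z1 z2 (by omega) (by omega) le_rfl (Or.inl le_rfl) e1 hz1 ?_ hz2 ?_
    · exact (e1 ▸ List.sublist_append_left z1 z2).trans h2
    · exact (hu2 ▸ List.sublist_append_right u z2).trans hz4

end Vale.Agent.P238
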