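import Vale.Agent.P238.Fourier

namespace Vale.Agent.P238

open Finset

theorem addChar_map_sum {G ι : Type} [AddCommGroup G] (ψ : AddChar G ℂ) (s : Finset ι)
    (f : ι → G) : ψ (∑ i ∈ s, f i) = ∏ i ∈ s, ψ (f i) := by
  classical
  induction s using Finset.induction_on with
  | empty => simp
  | insert a s ha ih => rw [sum_insert ha, prod_insert ha, AddChar.map_add_eq_mul, ih]

/-- Few of the distinct primes `p i` divide a nonzero number below `2 ^ κ`. -/
theorem card_primes_dvd {m κ : ℕ} (p : Fin m → ℕ) (hp : ∀ i, (p i).Prime)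
    (hinj : Function.Injective p) (d : ℕ) (hd : 0 < d) (hdκ : d < 2 ^ κ) :
    (univ.filter (fun i => p i ∣ d)).card ≤ κ := by
  set S := univ.filter (fun i => p i ∣ d) with hS
  have h1 : ∏ q ∈ S.image p, q ∣ d := by
    refine Finset.prod_primes_dvd d ?_ ?_
    · intro q hq
      obtain ⟨i, -, rfl⟩ := mem_image.1 hq
      exact (hp i).prime
    · intro q hq
      obtain ⟨i, hi, rfl⟩ := mem_image.1 hq
      exact (mem_filter.1 hi).2
  have h2 : 2 ^ (S.image p).card ≤ ∏ q ∈ S.image p, q := by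
    refine Finset.pow_card_le_prod _ _ _ ?_
    intro q hq
    obtain ⟨i, -, rfl⟩ := mem_image.1 hq
    exact (hp i).two_le
  rw [card_image_of_injective _ hinj] at h2
  have h3 : 2 ^ S.card < 2 ^ κ := lt_of_le_of_lt (h2.trans (Nat.le_of_dvd hd h1)) hdκ
  exact ((Nat.pow_lt_pow_iff_right (by norm_num)).1 h3).le

theorem card_primes_modEq {m κ M : ℕ} (p : Fin m → ℕ) (hp : ∀ i, (p i).Prime)
    (hinj : Function.Injective p) (hM : M ≤ 2 ^ κ) (t t' : ℕ) (ht : t < M) (ht' : t' < M)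
    (hne : t ≠ t') : (univ.filter (fun i => t ≡ t' [MOD p i])).card ≤ κ := by
  rcases lt_or_gt_of_ne hne with h | h
  · refine le_trans (card_le_card ?_) (card_primes_dvd p hp hinj (t' - t) (by omega) (by omega))
    intro i hi
    simp only [mem_filter, mem_univ, true_and] at hi ⊢
    exact (Nat.modEq_iff_dvd' h.le).1 hi
  · refine le_trans (card_le_card ?_) (card_primes_dvd p hp hinj (t - t') (by omega) (by omega))
    intro i hi
    simp only [mem_filter, mem_univ, true_and] at hi ⊢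
    exact (Nat.modEq_iff_dvd' h.le).1 hi.symm

theorem chain_card_cong (C : Finset (ℕ × ℕ)) (n m : ℕ) (hm : 2 ≤ m)
    (h1 : ∀ x ∈ C, x.1 < n ∧ x.2 < n)
    (h2 : ∀ x ∈ C, ∀ y ∈ C, (x.1 ≤ y.1 ∧ x.2 ≤ y.2) ∨ (y.1 ≤ x.1 ∧ y.2 ≤ x.2)) :
    (C.filter (fun x => x.1 % m = x.2 % m)).card ≤ n := by
  have key : ∀ x y : ℕ × ℕ, x.1 % m = x.2 % m → y.1 % m = y.2 % m → x.1 ≤ y.1 → x.2 ≤ y.2 →
      (x.1 + x.2) / 2 = (y.1 + y.2) / 2 → x = y := by
    intro x y hx hy h1 h2 h3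
    have e1 : x.1 = y.1 ∨ x.2 = y.2 := by omega
    have aux : ∀ a b : ℕ, a % m = b % m → a ≤ b → b ≤ a + 1 → a = b := by
      intro a b hab hle hle2
      have : m ∣ b - a := (Nat.modEq_iff_dvd' hle).1 hab
      by_contra hne
      have h5 : b - a = 1 := by omega
      rw [h5] at this
      have := Nat.le_of_dvd one_pos this
      omega
    rcases e1 with e1 | e1
    · exact Prod.ext e1 (aux _ _ (by rw [← hx, ← hy, e1]) h2 (by omega))
    · exact Prod.ext (aux _ _ (by rw [hx, hy, e1]) h1 (by omega)) e1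
  calc _ ≤ (range n).card := by
        refine card_le_card_of_injOn (fun x => (x.1 + x.2) / 2) ?_ ?_
        · intro x hx
          have := h1 x (mem_filter.1 hx).1
          simp only [coe_range, Set.mem_Iio]
          omega
        · intro x hx y hy hxy
          have hx' := mem_filter.1 (mem_coe.1 hx)
          have hy' := mem_filter.1 (mem_coe.1 hy)
          rcases h2 x hx'.1 y hy'.1 with h | h
          · exact key x y hx'.2 hy'.2 h.1 h.2 hxy
          · exact (key y x hy'.2 hx'.2 h.1 h.2 hxy.symm).symm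
    _ = n := card_range n

/-- The column of block number `β`. -/
def idx (m : ℕ) [NeZero m] (β : ℕ) : Fin m := ⟨β % m, Nat.mod_lt _ (NeZero.pos m)⟩

theorem chain_card_good (C : Finset (ℕ × ℕ)) (M m κ : ℕ) [NeZero m] (p : Fin m → ℕ)
    (hp : ∀ i, (p i).Prime) (hinj : Function.Injective p) (hM : M ≤ 2 ^ κ)
    (h1 : ∀ x ∈ C, x.1 < M * m ∧ x.2 < M * m)
    (h2 : ∀ x ∈ C, ∀ y ∈ C, (x.1 ≤ y.1 ∧ x.2 ≤ y.2) ∨ (y.1 ≤ x.1 ∧ y.2 ≤ x.2)) :
    (C.filter (fun x => x.1 % m = x.2 % m ∧ x.1 / m ≠ x.2 / m ∧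
      x.1 / m ≡ x.2 / m [MOD p (idx m x.1)])).card ≤ κ * (2 * M) := by
  have hm : 0 < m := NeZero.pos m
  have hlt : ∀ a, a < M * m → a / m < M := fun a ha => (Nat.div_lt_iff_lt_mul hm).2 ha
  rw [← card_range (2 * M)]
  refine card_le_mul_card_image_of_maps_to (f := fun x : ℕ × ℕ => x.1 / m + x.2 / m) ?_ κ ?_
  · intro x hx
    have := h1 x (mem_filter.1 hx).1
    have a1 := hlt _ this.1
    have a2 := hlt _ this.2
    rw [mem_range]
    omega
  · intro b _
    rcases (Finset.filter (fun a : ℕ × ℕ => a.1 / m + a.2 / m = b) (C.filter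
      (fun x => x.1 % m = x.2 % m ∧ x.1 / m ≠ x.2 / m ∧
      x.1 / m ≡ x.2 / m [MOD p (idx m x.1)]))).eq_empty_or_nonempty with he | ⟨x0, hx0⟩
    · rw [he]; simp
    simp only [mem_filter] at hx0
    obtain ⟨⟨hx0C, -, hx0ne, -⟩, hx0b⟩ := hx0
    have same : ∀ y ∈ C, y.1 / m + y.2 / m = b → y.1 / m = x0.1 / m ∧ y.2 / m = x0.2 / m := by
      intro y hy hyb
      rcases h2 x0 hx0C y hy with h | h
      · have a1 := Nat.div_le_div_right (c := m) h.1
        have a2 := Nat.div_le_div_right (c := m) h.2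
        omega
      · have a1 := Nat.div_le_div_right (c := m) h.1
        have a2 := Nat.div_le_div_right (c := m) h.2
        omega
    refine le_trans ?_ (card_primes_modEq p hp hinj hM (x0.1 / m) (x0.2 / m)
      (hlt _ (h1 x0 hx0C).1) (hlt _ (h1 x0 hx0C).2) hx0ne)
    refine card_le_card_of_injOn (fun x => idx m x.1) ?_ ?_
    · intro y hy
      simp only [coe_filter, mem_filter, Set.mem_ofPred_eq, mem_univ, true_and] at hy ⊢
      obtain ⟨⟨hyC, -, -, hy3⟩, hyb⟩ := hy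
      obtain ⟨e1, e2⟩ := same y hyC hyb
      rwa [e1, e2] at hy3
    · intro y hy z hz hyz
      simp only [coe_filter, mem_filter, Set.mem_ofPred_eq] at hy hz
      obtain ⟨⟨hyC, hy1, -, -⟩, hyb⟩ := hy
      obtain ⟨⟨hzC, hz1, -, -⟩, hzb⟩ := hz
      obtain ⟨e1, e2⟩ := same y hyC hyb
      obtain ⟨e3, e4⟩ := same z hzC hzb
      have e5 : y.1 % m = z.1 % m := congrArg Fin.val hyz
      refine Prod.ext ?_ ?_
      · rw [← Nat.div_add_mod y.1 m, ← Nat.div_add_mod z.1 m, e1, e3, e5]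
      · rw [← Nat.div_add_mod y.2 m, ← Nat.div_add_mod z.2 m, e2, e4, ← hy1, ← hz1, e5]

/-- A product of roots of unity of coprime orders is not `1` unless the first one is. -/
theorem root_prod_dist {ι : Type} (S : Finset ι) (p : ι → ℕ) (q P g : ℕ) (ω0 : ℂ) (ω : ι → ℂ)
    (hq : 0 < q) (hqP : q ≤ P) (hp : ∀ i, 0 < p i) (hpP : ∀ i, p i ≤ P)
    (hcop : ∀ i, Nat.Coprime (p i) q) (h0 : ω0 ^ q = 1) (hω : ∀ i, ω i ^ p i = 1)
    (hne : ω0 ≠ 1) (hS : S.card < g) :
    1 ≤ ((P : ℝ) ^ g) ^ 2 * ‖1 - ω0 * ∏ i ∈ S, ω i‖ ^ 2 := by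
  set R := ∏ i ∈ S, p i with hR
  have hRpos : 0 < R := prod_pos fun i _ => hp i
  have h1 : (∏ i ∈ S, ω i) ^ R = 1 := by
    rw [← prod_pow]
    refine prod_eq_one fun i hi => ?_
    obtain ⟨c, hc⟩ : p i ∣ R := dvd_prod_of_mem _ hi
    rw [hc, pow_mul, hω, one_pow]
  have h2 : (ω0 * ∏ i ∈ S, ω i) ^ (q * R) = 1 := by
    rw [mul_pow, pow_mul, h0, one_pow, one_mul, mul_comm q R, pow_mul, h1, one_pow]
  have h3 : ω0 * ∏ i ∈ S, ω i ≠ 1 := by
    intro h
    have h4 : ω0 ^ R = 1 := by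
      have := congrArg (· ^ R) h
      simpa only [mul_pow, h1, mul_one, one_pow] using this
    have h5 : Nat.Coprime R q := Nat.Coprime.prod_left fun i _ => hcop i
    have h6 : ω0 ^ Nat.gcd R q = 1 := pow_gcd_eq_one.2 ⟨h4, h0⟩
    rw [h5.gcd_eq_one, pow_one] at h6
    exact hne h6
  have h4 := root_unity_dist _ (q * R) (Nat.mul_pos hq hRpos) h2 h3
  have h5 : q * R ≤ P ^ g := by
    have : R ≤ P ^ S.card := prod_le_pow_card _ _ _ fun i _ => hpP i
    calc q * R ≤ P * P ^ S.card := Nat.mul_le_mul hqP this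
      _ = P ^ (S.card + 1) := by ring
      _ ≤ P ^ g := Nat.pow_le_pow_right (by omega) hS
  have h6 : ((q * R : ℕ) : ℝ) ≤ (P : ℝ) ^ g := by exact_mod_cast h5
  have h7 : 1 ≤ (P : ℝ) ^ g * ‖1 - ω0 * ∏ i ∈ S, ω i‖ :=
    h4.trans (mul_le_mul_of_nonneg_right h6 (norm_nonneg _))
  rw [← mul_pow]
  exact one_le_pow₀ h7

end Vale.Agent.P238
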