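import Mathlib

namespace Vale.Agent.P238

open Finset

/-- Nonnegative combinations of finitely many cut pseudometrics. -/
def IsCut {X : Type} (d : X → X → ℝ) : Prop :=
  ∃ (ι : Type) (_ : Fintype ι) (lam : ι → ℝ) (φ : ι → X → Bool), (∀ c, 0 ≤ lam c) ∧
    ∀ x y, d x y = ∑ c, lam c * (if φ c x = φ c y then 0 else 1)

variable {X Y : Type}

theorem IsCut.nonneg {d : X → X → ℝ} (h : IsCut d) (x y : X) : 0 ≤ d x y := by
  obtain ⟨ι, _, lam, φ, h1, h2⟩ := h
  rw [h2]
  exact sum_nonneg fun c _ => mul_nonneg (h1 c) (by split_ifs <;> norm_num)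

theorem IsCut.self {d : X → X → ℝ} (h : IsCut d) (x : X) : d x x = 0 := by
  obtain ⟨ι, _, lam, φ, h1, h2⟩ := h
  simp [h2]

theorem IsCut.symm {d : X → X → ℝ} (h : IsCut d) (x y : X) : d x y = d y x := by
  obtain ⟨ι, _, lam, φ, h1, h2⟩ := h
  simp only [h2, eq_comm]

theorem IsCut.triangle {d : X → X → ℝ} (h : IsCut d) (x y z : X) : d x z ≤ d x y + d y z := by
  obtain ⟨ι, _, lam, φ, h1, h2⟩ := h
  rw [h2, h2, h2, ← sum_add_distrib]
  refine sum_le_sum fun c _ => ?_
  rw [← mul_add]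
  refine mul_le_mul_of_nonneg_left ?_ (h1 c)
  cases φ c x <;> cases φ c y <;> cases φ c z <;> simp

theorem IsCut.comp {d : X → X → ℝ} (h : IsCut d) (g : Y → X) :
    IsCut (fun x y => d (g x) (g y)) := by
  obtain ⟨ι, _, lam, φ, h1, h2⟩ := h
  exact ⟨ι, inferInstance, lam, fun c x => φ c (g x), h1, fun x y => h2 _ _⟩

theorem IsCut.smul {d : X → X → ℝ} (h : IsCut d) (a : ℝ) (ha : 0 ≤ a) :
    IsCut (fun x y => a * d x y) := by
  obtain ⟨ι, _, lam, φ, h1, h2⟩ := h
  refine ⟨ι, inferInstance, fun c => a * lam c, φ, fun c => mul_nonneg ha (h1 c), fun x y => ?_⟩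
  simp only [h2, mul_sum, mul_assoc]

theorem IsCut.sum {κ : Type} [Fintype κ] {d : κ → X → X → ℝ} (h : ∀ k, IsCut (d k)) :
    IsCut (fun x y => ∑ k, d k x y) := by
  choose ι inst lam φ h1 h2 using h
  refine ⟨Σ k, ι k, inferInstance, fun c => lam c.1 c.2, fun c => φ c.1 c.2,
    fun c => h1 _ _, fun x y => ?_⟩
  simp only [h2, Fintype.sum_sigma]

theorem IsCut.sum_range {d : ℕ → X → X → ℝ} (n : ℕ) (h : ∀ k, IsCut (d k)) :
    IsCut (fun x y => ∑ k ∈ range n, d k x y) := by
  simp only [Finset.sum_range]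
  exact IsCut.sum fun k => h k

theorem IsCut.add {d d' : X → X → ℝ} (h : IsCut d) (h' : IsCut d') :
    IsCut (fun x y => d x y + d' x y) := by
  have := IsCut.sum (κ := Bool) (d := fun k => if k then d else d') (by
    rintro (_ | _)
    · simpa using h'
    · simpa using h)
  simpa using this

theorem sum_abs_ite {Z : Type} [Fintype Z] [DecidableEq Z] (a b : Z) :
    ∑ z, |(if a = z then (1 : ℝ) else 0) - (if b = z then 1 else 0)| =
      2 * (if a = b then 0 else 1) := by
  by_cases hab : a = b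
  · simp [hab]
  · have : ∀ z, |(if a = z then (1 : ℝ) else 0) - (if b = z then 1 else 0)| =
        (if a = z then (1 : ℝ) else 0) + (if b = z then 1 else 0) := by
      intro z
      by_cases h1 : a = z <;> by_cases h2 : b = z
      · exact absurd (h1.trans h2.symm) hab
      · simp [h1, h2]
      · simp [h1, h2]
      · simp [h1, h2]
    simp only [this, sum_add_distrib, sum_ite_eq, mem_univ, if_true, hab, if_false]
    norm_num

theorem isCut_discrete {Z : Type} [Fintype Z] [DecidableEq Z] (h : X → Z) :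
    IsCut (fun x y => if h x = h y then (0 : ℝ) else 1) := by
  refine ⟨Z, inferInstance, fun _ => 1 / 2, fun z x => decide (h x = z), fun _ => by norm_num,
    fun x y => ?_⟩
  have h1 := sum_abs_ite (h x) (h y)
  have h2 : ∀ z, (if decide (h x = z) = decide (h y = z) then (0 : ℝ) else 1) =
      |(if h x = z then (1 : ℝ) else 0) - (if h y = z then 1 else 0)| := by
    intro z
    by_cases h1 : h x = z <;> by_cases h2 : h y = z <;> simp [h1, h2]
  simp only [h2, ← mul_sum, h1]
  ring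

theorem sum_ite_lt (s m : ℕ) (hm : m ≤ s) :
    ∑ j ∈ range s, (if j < m then (1 : ℝ) else 0) = m := by
  rw [← sum_filter]
  have : filter (fun j => j < m) (range s) = range m := by
    ext j
    simp only [mem_filter, mem_range]
    omega
  simp [this]

theorem isCut_nat (N : X → ℕ) (s : ℕ) (hN : ∀ x, N x ≤ s) :
    IsCut (fun x y => |(N x : ℝ) - N y|) := by
  refine ⟨Fin s, inferInstance, fun _ => 1, fun j x => decide (j.val < N x), fun _ => zero_le_one,
    fun x y => ?_⟩
  have key : ∀ m m' : ℕ, m ≤ m' → m' ≤ s → |(m : ℝ) - m'| =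
      ∑ j ∈ range s, (if decide (j < m) = decide (j < m') then (0 : ℝ) else 1) := by
    intro m m' h1 h2
    have h3 : (m : ℝ) ≤ m' := by exact_mod_cast h1
    rw [abs_sub_comm, abs_of_nonneg (by linarith), ← sum_ite_lt s m (h1.trans h2),
      ← sum_ite_lt s m' h2, ← sum_sub_distrib]
    refine sum_congr rfl fun j _ => ?_
    by_cases a1 : j < m
    · have a2 : j < m' := by omega
      simp [a1, a2]
    · by_cases a2 : j < m' <;> simp [a1, a2]
  simp only [one_mul]
  rw [← Finset.sum_range (fun j => if decide (j < N x) = decide (j < N y) then (0 : ℝ) else 1)]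
  rcases le_total (N x) (N y) with h | h
  · exact key _ _ h (hN y)
  · rw [abs_sub_comm, key _ _ h (hN x)]
    simp only [eq_comm]

/-- Locality sensitive hashing for a cut metric. -/
theorem IsCut.hash {d : X → X → ℝ} (h : IsCut d) (r : ℝ) (hr : 0 < r) :
    ∃ (Ω : Type) (_ : Fintype Ω) (_ : DecidableEq Ω) (w : Ω → ℝ) (H : Ω → X → Ω),
      (∀ ω, 0 ≤ w ω) ∧ ∑ ω, w ω = 1 ∧
      ∀ x y, ∑ ω, w ω * (if H ω x = H ω y then 1 else 0) = Real.exp (-(d x y / r)) := by
  classical
  obtain ⟨ι, _, lam, φ, h1, h2⟩ := h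
  set q : ι → Bool → ℝ := fun c b =>
    if b then 1 - Real.exp (-(lam c / r)) else Real.exp (-(lam c / r)) with hq
  refine ⟨ι → Bool, inferInstance, inferInstance, fun ω => ∏ c, q c (ω c),
    fun ω x c => ω c && φ c x, fun ω => prod_nonneg fun c _ => ?_, ?_, fun x y => ?_⟩
  · rw [hq]
    have : Real.exp (-(lam c / r)) ≤ 1 :=
      Real.exp_le_one_iff.2 (neg_nonpos.2 (div_nonneg (h1 c) hr.le))
    dsimp only
    split_ifs
    · linarith
    · exact (Real.exp_pos _).le
  · rw [← Fintype.prod_sum]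
    simp [hq]
  · have e1 : ∀ ω : ι → Bool, (∏ c, q c (ω c)) *
        (if (fun c => ω c && φ c x) = (fun c => ω c && φ c y) then (1 : ℝ) else 0) =
        ∏ c, (q c (ω c) * (if (ω c && φ c x) = (ω c && φ c y) then (1 : ℝ) else 0)) := by
      intro ω
      rw [prod_mul_distrib, Fintype.prod_boole]
      congr 1
      simp only [funext_iff]
    simp only [e1]
    rw [← Fintype.prod_sum (fun c b => q c b * (if (b && φ c x) = (b && φ c y) then (1 : ℝ) else 0)),
      h2, sum_div, ← sum_neg_distrib, Real.exp_sum]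
    refine prod_congr rfl fun c _ => ?_
    by_cases hc : φ c x = φ c y
    · simp [hq, hc]
    · simp [hq, hc]

section counts

variable {Z : Type} [Fintype Z] [DecidableEq Z]

/-- The number of `t < s` with `a t = z`. -/
def cnt (a : ℕ → Z) (s : ℕ) (z : Z) : ℕ := ((range s).filter (fun t => a t = z)).card

/-- The `ℓ₁` distance of two count vectors. -/
def cdist (a a' : ℕ → Z) (s : ℕ) : ℝ := ∑ z, |(cnt a s z : ℝ) - cnt a' s z|

omit [Fintype Z] in
theorem cnt_eq (a : ℕ → Z) (s : ℕ) (z : Z) :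
    (cnt a s z : ℝ) = ∑ t ∈ range s, if a t = z then (1 : ℝ) else 0 := by
  simp [cnt]

omit [Fintype Z] in
theorem cnt_le (a : ℕ → Z) (s : ℕ) (z : Z) : cnt a s z ≤ s :=
  (card_filter_le _ _).trans (card_range s).le

theorem cdist_le (a a' : ℕ → Z) (s : ℕ) :
    cdist a a' s ≤ ∑ t ∈ range s, 2 * (if a t = a' t then (0 : ℝ) else 1) := by
  simp only [cdist, cnt_eq, ← sum_sub_distrib, ← sum_abs_ite]
  rw [sum_comm]
  exact sum_le_sum fun z _ => abs_sum_le_sum_abs _ _

theorem cdist_shift (a a' : ℕ → Z) (s : ℕ) (h : ∀ t, a' (t + 1) = a t) : cdist a a' s ≤ 2 := by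
  have : ∀ z, (cnt a s z : ℝ) - cnt a' s z =
      (if a' s = z then (1 : ℝ) else 0) - (if a' 0 = z then 1 else 0) := by
    intro z
    have e1 := sum_range_succ (fun t => if a' t = z then (1 : ℝ) else 0) s
    have e2 := sum_range_succ' (fun t => if a' t = z then (1 : ℝ) else 0) s
    simp only [h] at e2
    rw [cnt_eq, cnt_eq]
    linarith
  simp only [cdist, this, sum_abs_ite]
  split_ifs <;> norm_num

theorem le_cdist (a a' : ℕ → Z) (s : ℕ) :
    (s : ℝ) - ∑ t ∈ range s, ∑ t' ∈ range s, (if a t = a' t' then (1 : ℝ) else 0) ≤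
      cdist a a' s := by
  have h1 : ∀ c c' : ℕ, (c : ℝ) - c * c' ≤ |(c : ℝ) - c'| := by
    intro c c'
    rcases Nat.eq_zero_or_pos c' with h | h
    · simp [h]
    · have : (1 : ℝ) ≤ c' := by exact_mod_cast h
      have h0 : (0 : ℝ) ≤ c := by positivity
      nlinarith [abs_nonneg ((c : ℝ) - c')]
  refine le_trans (le_of_eq ?_) (sum_le_sum fun z _ => h1 _ _)
  rw [sum_sub_distrib]
  congr 1
  · simp only [cnt_eq]
    rw [sum_comm]
    simp
  · simp only [cnt_eq, sum_mul_sum]
    symm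
    rw [sum_comm]
    refine sum_congr rfl fun t _ => ?_
    rw [sum_comm]
    refine sum_congr rfl fun t' _ => ?_
    simp only [ite_mul, one_mul, zero_mul, sum_ite_eq, mem_univ, if_true]
    simp only [eq_comm]

end counts

/-- An `ℓ₁` substitute for the truncated transportation distance between two families. -/
theorem IsCut.emd {d : X → X → ℝ} (h : IsCut d) (r : ℝ) (hr : 0 < r) (s : ℕ)
    (g : ℕ → Y → X) :
    ∃ Φ : Y → Y → ℝ, IsCut Φ ∧
      (∀ u v A, (∀ t < s, d (g t u) (g t v) ≤ A) → Φ u v ≤ 2 * s * A / r) ∧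
      (∀ u v, (∀ t, g (t + 1) v = g t u) → Φ u v ≤ 2) ∧
      (∀ u v Λ, (∀ t < s, ∀ t' < s, r * Λ ≤ d (g t u) (g t' v)) →
        s - (s : ℝ) ^ 2 * Real.exp (-Λ) ≤ Φ u v) := by
  obtain ⟨Ω, _, _, w, H, hw0, hw1, hH⟩ := h.hash r hr
  refine ⟨fun u v => ∑ ω, w ω * cdist (fun t => H ω (g t u)) (fun t => H ω (g t v)) s,
    IsCut.sum fun ω => IsCut.smul (IsCut.sum fun z =>
      isCut_nat (fun u => cnt (fun t => H ω (g t u)) s z) s fun u => cnt_le _ _ _) _ (hw0 ω),
    fun u v A hA => ?_, fun u v huv => ?_, fun u v Λ hΛ => ?_⟩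
  · refine (sum_le_sum fun ω _ => mul_le_mul_of_nonneg_left (cdist_le _ _ _) (hw0 ω)).trans ?_
    simp only [mul_sum]
    rw [sum_comm]
    have : ∀ t ∈ range s, ∑ ω, w ω * (2 * (if H ω (g t u) = H ω (g t v) then (0 : ℝ) else 1)) ≤
        2 * A / r := by
      intro t ht
      have e1 : ∀ ω, w ω * (2 * (if H ω (g t u) = H ω (g t v) then (0 : ℝ) else 1)) =
          2 * (w ω - w ω * (if H ω (g t u) = H ω (g t v) then (1 : ℝ) else 0)) := by
        intro ω
        split_ifs <;> ring
      simp only [e1, ← mul_sum, sum_sub_distrib, hw1, hH]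
      have e2 := Real.add_one_le_exp (-(d (g t u) (g t v) / r))
      have e3 : d (g t u) (g t v) / r ≤ A / r :=
        div_le_div_of_nonneg_right (hA t (mem_range.1 ht)) hr.le
      rw [mul_div_assoc]
      linarith
    refine (sum_le_card_nsmul _ _ _ this).trans (le_of_eq ?_)
    rw [card_range, nsmul_eq_mul]
    ring
  · refine (sum_le_sum fun ω _ => mul_le_mul_of_nonneg_left
      (cdist_shift _ _ s fun t => by simp only [huv]) (hw0 ω)).trans ?_
    rw [← sum_mul, hw1, one_mul]
  · refine le_trans ?_ (sum_le_sum fun ω _ => mul_le_mul_of_nonneg_left (le_cdist _ _ _) (hw0 ω))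
    simp only [mul_sub, sum_sub_distrib, ← sum_mul, hw1, one_mul, mul_sum]
    refine sub_le_sub_left ?_ _
    rw [sum_comm]
    have : ∀ t ∈ range s, ∑ ω, ∑ t' ∈ range s,
        w ω * (if H ω (g t u) = H ω (g t' v) then (1 : ℝ) else 0) ≤ s * Real.exp (-Λ) := by
      intro t ht
      rw [sum_comm]
      have : ∀ t' ∈ range s, ∑ ω, w ω * (if H ω (g t u) = H ω (g t' v) then (1 : ℝ) else 0) ≤
          Real.exp (-Λ) := by
        intro t' ht'
        rw [hH]
        refine Real.exp_le_exp.2 (neg_le_neg ?_)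
        rw [le_div_iff₀ hr, mul_comm]
        exact hΛ t (mem_range.1 ht) t' (mem_range.1 ht')
      refine (sum_le_card_nsmul _ _ _ this).trans (le_of_eq ?_)
      rw [card_range, nsmul_eq_mul]
    refine (sum_le_card_nsmul _ _ _ this).trans (le_of_eq ?_)
    rw [card_range, nsmul_eq_mul]
    ring

theorem IsCut.embed {d : X → X → ℝ} (h : IsCut d) :
    ∃ f : X → lp (fun _ : ℕ => ℝ) 1, ∀ x y, ‖f x - f y‖ = d x y := by
  classical
  obtain ⟨ι, _, lam, φ, h1, h2⟩ := h
  set e := Fintype.equivFin ι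
  set g : X → ℕ → ℝ := fun x j => if hj : j < Fintype.card ι then
    lam (e.symm ⟨j, hj⟩) * (if φ (e.symm ⟨j, hj⟩) x then 1 else 0) else 0 with hg
  refine ⟨fun x => ∑ j ∈ range (Fintype.card ι), lp.single 1 j (g x j), fun x y => ?_⟩
  have e1 := lp.norm_sum_single (E := fun _ : ℕ => ℝ) (p := 1) (by simp) (fun j => g x j - g y j)
    (range (Fintype.card ι))
  simp only [ENNReal.toReal_one, Real.rpow_one, lp.single_sub, sum_sub_distrib] at e1
  rw [e1, h2, Finset.sum_range, ← Equiv.sum_comp e.symm]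
  refine sum_congr rfl fun j _ => ?_
  simp only [hg, j.2, dif_pos, Fin.eta, ← mul_sub, norm_mul, Real.norm_eq_abs, abs_of_nonneg (h1 _)]
  congr 1
  cases φ (e.symm j) x <;> cases φ (e.symm j) y <;> simp

end Vale.Agent.P238
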