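import Mathlib

namespace Vale.Agent.P238

/-- One unit-cost edit operation: insertion, deletion or substitution of a single symbol. -/
inductive Step {α : Type} : List α → List α → Prop
  | ins (p s : List α) (a : α) : Step (p ++ s) (p ++ a :: s)
  | del (p s : List α) (a : α) : Step (p ++ a :: s) (p ++ s)
  | sub (p s : List α) (a b : α) : Step (p ++ a :: s) (p ++ b :: s)

/-- `Edits k x y`: the word `x` is transformed into `y` by a sequence of `k` edit operations. -/
inductive Edits {α : Type} : ℕ → List α → List α → Prop
  | refl (x : List α) : Edits 0 x x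
  | step {k : ℕ} {x y z : List α} : Step x y → Edits k y z → Edits (k + 1) x z

/-- Edit distance: the least number of edit operations transforming `x` into `y`. -/
noncomputable def ED {α : Type} (x y : List α) : ℕ := sInf {k : ℕ | Edits k x y}

/-- The least distortion of an embedding of the finite metric space `(X, ρ)` into real `ℓ₁`:
the infimum over injective `f : X → ℓ₁` of (expansion of `f`) times (contraction of `f`). -/
noncomputable def c1 (X : Type) (ρ : X → X → ℝ) : ℝ :=
  ⨅ f : {f : X → lp (fun _ : ℕ => ℝ) 1 // Function.Injective f},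
    (⨆ p : {p : X × X // p.1 ≠ p.2}, ‖f.1 p.1.1 - f.1 p.1.2‖ / ρ p.1.1 p.1.2) *
    (⨆ p : {p : X × X // p.1 ≠ p.2}, ρ p.1.1 p.1.2 / ‖f.1 p.1.1 - f.1 p.1.2‖)

end Vale.Agent.P238
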