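import Vale.Agent.P238.Basic

namespace Vale.Agent.P238

open List

/-- The window of length `L` at the start of `w`, kept only when it begins with the marker. -/
def win (L : ℕ) (w : List Bool) : List (List Bool) :=
  if w.take 2 = [true, true] then [w.take L] else []

/-- All marked windows of a binary word. -/
def dec (L : ℕ) : List Bool → List (List Bool)
  | [] => []
  | a :: u => win L (a :: u) ++ dec L u

/-- The marked windows of `p ++ s` that start inside `p`. -/
def decA (L : ℕ) : List Bool → List Bool → List (List Bool)
  | [], _ => []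
  | a :: p, s => win L (a :: p ++ s) ++ decA L p s

theorem dec_append (L : ℕ) (p s : List Bool) : dec L (p ++ s) = decA L p s ++ dec L s := by
  induction p with
  | nil => simp [decA]
  | cons a p ih => simp [dec, decA, ih]

theorem win_length (L : ℕ) (w : List Bool) : (win L w).length ≤ 1 := by
  unfold win
  split_ifs <;> simp

theorem decA_length (L : ℕ) (p s : List Bool) : (decA L p s).length ≤ p.length := by
  induction p with
  | nil => simp [decA]
  | cons a p ih =>
    have := win_length L (a :: p ++ s)
    simp only [decA, length_append, length_cons]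
    omega

theorem win_congr (L : ℕ) (hL : 2 ≤ L) (p s s' : List Bool) (hp : L ≤ p.length) :
    win L (p ++ s) = win L (p ++ s') := by
  unfold win
  rw [take_append_of_le_length hp, take_append_of_le_length hp,
    take_append_of_le_length (hL.trans hp), take_append_of_le_length (hL.trans hp)]

theorem decA_split (L : ℕ) (hL : 2 ≤ L) (p s s' : List Bool) :
    ∃ A B B', decA L p s = A ++ B ∧ decA L p s' = A ++ B' ∧ B.length ≤ L := by
  induction p with
  | nil => exact ⟨[], [], [], by simp [decA], by simp [decA], by simp⟩
  | cons a p ih =>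
    by_cases h : L ≤ (a :: p).length
    · obtain ⟨A, B, B', h1, h2, h3⟩ := ih
      refine ⟨win L (a :: p ++ s) ++ A, B, B', ?_, ?_, h3⟩
      · rw [decA, h1, append_assoc]
      · rw [decA, h2, append_assoc, win_congr L hL _ s s' h]
    · exact ⟨[], decA L (a :: p) s, decA L (a :: p) s', rfl, rfl,
        (decA_length L (a :: p) s).trans (not_le.1 h).le⟩

theorem sub_mid {γ : Type} (A B B' C z : List γ) (hz : z <+ A ++ B ++ C) :
    ∃ z', z' <+ z ∧ z' <+ A ++ B' ++ C ∧ z.length ≤ z'.length + B.length := by
  obtain ⟨u, z3, rfl, hu, h3⟩ := sublist_append_iff.1 hz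
  obtain ⟨z1, z2, rfl, h1, h2⟩ := sublist_append_iff.1 hu
  refine ⟨z1 ++ z3, ?_, ?_, ?_⟩
  · exact (sublist_append_left z1 z2).append (Sublist.refl z3)
  · exact (h1.trans (sublist_append_left A B')).append h3
  · have := h2.length_le
    simp only [length_append]
    omega

theorem Step.common (L : ℕ) (hL : 2 ≤ L) {u v : List Bool} (h : Step u v)
    (z : List (List Bool)) (hz : z <+ dec L u) :
    ∃ z', z' <+ z ∧ z' <+ dec L v ∧ z.length ≤ z'.length + (L + 1) := by
  cases h with
  | ins p s a =>
    obtain ⟨A, B, B', h1, h2, h3⟩ := decA_split L hL p s (a :: s)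
    rw [dec_append, h1] at hz
    obtain ⟨z', a1, a2, a3⟩ := sub_mid A B (B' ++ win L (a :: s)) _ z hz
    refine ⟨z', a1, ?_, by omega⟩
    rw [dec_append, h2, dec]
    simpa only [append_assoc] using a2
  | del p s a =>
    obtain ⟨A, B, B', h1, h2, h3⟩ := decA_split L hL p (a :: s) s
    rw [dec_append, h1, dec] at hz
    obtain ⟨z', a1, a2, a3⟩ := sub_mid A (B ++ win L (a :: s)) B' (dec L s) z
      (by simpa only [append_assoc] using hz)
    have := win_length L (a :: s)
    rw [length_append] at a3
    refine ⟨z', a1, ?_, by omega⟩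
    rwa [dec_append, h2]
  | sub p s a b =>
    obtain ⟨A, B, B', h1, h2, h3⟩ := decA_split L hL p (a :: s) (b :: s)
    rw [dec_append, h1, dec] at hz
    obtain ⟨z', a1, a2, a3⟩ := sub_mid A (B ++ win L (a :: s)) (B' ++ win L (b :: s)) (dec L s) z
      (by simpa only [append_assoc] using hz)
    have := win_length L (a :: s)
    rw [length_append] at a3
    refine ⟨z', a1, ?_, by omega⟩
    rw [dec_append, h2, dec]
    simpa only [append_assoc] using a2

theorem Edits.common (L : ℕ) (hL : 2 ≤ L) {k : ℕ} {u v : List Bool} (h : Edits k u v) :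
    ∀ z, z <+ dec L u → ∃ z', z' <+ z ∧ z' <+ dec L v ∧ z.length ≤ z'.length + (L + 1) * k := by
  induction h with
  | refl x => exact fun z hz => ⟨z, Sublist.refl z, hz, by simp⟩
  | step hs _ ih =>
    intro z hz
    obtain ⟨z1, a1, a2, a3⟩ := hs.common L hL z hz
    obtain ⟨z2, b1, b2, b3⟩ := ih z1 a2
    refine ⟨z2, b1.trans a1, b2, ?_⟩
    rw [Nat.mul_succ]
    omega

/-- Unary code of fixed length. -/
def unary (P c : ℕ) : List Bool := (List.range P).map (fun j => decide (j < c))

/-- Interleaving with zeros. -/
def body (l : List Bool) : List Bool := l.flatMap (fun b => [false, b]) ++ [false]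

/-- The binary code word of a symbol. -/
def enc (r P : ℕ) (a : List ℕ) : List Bool := true :: true :: body ((a.take r).flatMap (unary P))

theorem body_cons (b : Bool) (l : List Bool) : body (b :: l) = false :: b :: body l := by
  simp [body]

theorem body_length (l : List Bool) : (body l).length = 2 * l.length + 1 := by
  induction l with
  | nil => simp [body]
  | cons b l ih => rw [body_cons]; simp only [length_cons, ih]; ring

theorem body_injective : ∀ l l' : List Bool, body l = body l' → l = l'
  | [], [], _ => rfl
  | [], b :: l, h => by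
    have := congrArg List.length h
    simp [body_length] at this
  | b :: l, [], h => by
    have := congrArg List.length h
    simp [body_length] at this
  | b :: l, b' :: l', h => by
    rw [body_cons, body_cons] at h
    simp only [cons.injEq, true_and] at h
    rw [h.1, body_injective l l' h.2]

theorem body_head (l : List Bool) : ∃ t, body l = false :: t := by
  cases l with
  | nil => exact ⟨[], rfl⟩
  | cons b l => exact ⟨_, body_cons b l⟩

theorem decA_body (L : ℕ) (l s : List Bool) : decA L (body l) s = [] := by
  induction l with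
  | nil => simp [body, decA, win]
  | cons b l ih =>
    rw [body_cons, decA, decA, ih]
    obtain ⟨t, ht⟩ := body_head l
    simp [win, ht]

theorem unary_length (P c : ℕ) : (unary P c).length = P := by simp [unary]

theorem flatMap_unary_length (P : ℕ) (a : List ℕ) :
    (a.flatMap (unary P)).length = P * a.length := by
  induction a with
  | nil => simp
  | cons c a ih => simp only [flatMap_cons, length_append, unary_length, ih, length_cons]; ring

theorem enc_length (r P : ℕ) (a : List ℕ) : (enc r P a).length = 2 * (P * min r a.length) + 3 := by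
  simp only [enc, length_cons, body_length, flatMap_unary_length, length_take]

theorem enc_length_le (r P : ℕ) (a : List ℕ) : (enc r P a).length ≤ 2 * (P * r) + 3 := by
  rw [enc_length]
  have := Nat.mul_le_mul_left P (min_le_left r a.length)
  omega

theorem unary_inj (P c c' : ℕ) (hc : c < P) (hc' : c' < P) (h : unary P c = unary P c') :
    c = c' := by
  have h1 := List.map_inj_left.1 h
  have h2 := h1 c (List.mem_range.2 hc)
  have h3 := h1 c' (List.mem_range.2 hc')
  simp only [lt_self_iff_false, decide_false, false_eq_decide_iff, decide_eq_false_iff_not] at h2 h3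
  omega

theorem flatMap_unary_inj (P : ℕ) : ∀ a a' : List ℕ, a.length = a'.length → (∀ c ∈ a, c < P) →
    (∀ c ∈ a', c < P) → a.flatMap (unary P) = a'.flatMap (unary P) → a = a'
  | [], [], _, _, _, _ => rfl
  | [], _ :: _, h, _, _, _ => by simp at h
  | _ :: _, [], h, _, _, _ => by simp at h
  | c :: a, c' :: a', h, h1, h2, h3 => by
    rw [flatMap_cons, flatMap_cons] at h3
    obtain ⟨e1, e2⟩ := List.append_inj h3 (by rw [unary_length, unary_length])
    rw [unary_inj P c c' (h1 c mem_cons_self) (h2 c' mem_cons_self) e1,
      flatMap_unary_inj P a a' (by simpa using h) (fun d hd => h1 d (mem_cons_of_mem _ hd))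
        (fun d hd => h2 d (mem_cons_of_mem _ hd)) e2]

theorem enc_inj (r P : ℕ) (a a' : List ℕ) (h1 : a.length = r ∧ ∀ c ∈ a, c < P)
    (h2 : a'.length = r ∧ ∀ c ∈ a', c < P) (h : enc r P a = enc r P a') : a = a' := by
  simp only [enc, cons.injEq, true_and] at h
  have := body_injective _ _ h
  rw [take_of_length_le h1.1.le, take_of_length_le h2.1.le] at this
  exact flatMap_unary_inj P a a' (h1.1.trans h2.1.symm) h1.2 h2.2 this

theorem dec_flatMap_enc (r P : ℕ) (x : List (List ℕ)) (hx : ∀ a ∈ x, a.length = r) :
    dec (2 * (P * r) + 3) (x.flatMap (enc r P)) = x.map (enc r P) := by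
  induction x with
  | nil => simp [dec]
  | cons a x ih =>
    rw [flatMap_cons, dec_append, ih (fun b hb => hx b (mem_cons_of_mem _ hb)), map_cons]
    have hl : (enc r P a).length = 2 * (P * r) + 3 := by
      rw [enc_length, hx a mem_cons_self, min_self]
    have h1 : win (2 * (P * r) + 3) (enc r P a ++ x.flatMap (enc r P)) = [enc r P a] := by
      unfold win
      rw [if_pos (by simp [enc]), take_left' hl]
    obtain ⟨t, ht⟩ := body_head ((a.take r).flatMap (unary P))
    have h2 : decA (2 * (P * r) + 3) (enc r P a) (x.flatMap (enc r P)) = [enc r P a] := by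
      conv_lhs => rw [enc, decA, decA, decA_body]
      rw [← enc, h1, ht]
      simp [win]
    rw [h2]
    rfl

theorem dec_pad (L n : ℕ) (s : List Bool) : dec L (List.replicate n false ++ s) = dec L s := by
  induction n with
  | zero => simp
  | succ n ih => rw [replicate_succ, cons_append, dec, ih]; simp [win]

theorem map_injOn {γ δ : Type} (f : γ → δ) (V : γ → Prop)
    (hf : ∀ a b, V a → V b → f a = f b → a = b) :
    ∀ x y : List γ, (∀ a ∈ x, V a) → (∀ a ∈ y, V a) → x.map f = y.map f → x = y
  | [], [], _, _, _ => rfl
  | [], _ :: _, _, _, h => by simp at h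
  | _ :: _, [], _, _, h => by simp at h
  | a :: x, b :: y, h1, h2, h => by
    simp only [map_cons, cons.injEq] at h
    rw [hf a b (h1 a mem_cons_self) (h2 b mem_cons_self) h.1,
      map_injOn f V hf x y (fun c hc => h1 c (mem_cons_of_mem _ hc))
        (fun c hc => h2 c (mem_cons_of_mem _ hc)) h.2]

/-- The padded binary word. -/
def bin (n r P : ℕ) (x : List (List ℕ)) : List Bool :=
  List.replicate (n - (2 * (P * r) + 3) * x.length) false ++ x.flatMap (enc r P)

theorem bin_length (n r P : ℕ) (x : List (List ℕ)) (hx : ∀ a ∈ x, a.length = r)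
    (hn : (2 * (P * r) + 3) * x.length ≤ n) : (bin n r P x).length = n := by
  have : (x.flatMap (enc r P)).length = (2 * (P * r) + 3) * x.length := by
    clear hn
    induction x with
    | nil => simp
    | cons a x ih =>
      rw [flatMap_cons, length_append, ih (fun b hb => hx b (mem_cons_of_mem _ hb)), enc_length,
        hx a mem_cons_self, min_self, length_cons]
      ring
  rw [bin, length_append, length_replicate, this]
  omega

theorem ED_bin_le (n r P : ℕ) (x y : List (List ℕ)) (hxy : x.length = y.length) :
    ED (bin n r P x) (bin n r P y) ≤ 2 * (2 * (P * r) + 3) * ED x y := by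
  refine le_trans ?_ (ED_flatMap_le x y (enc r P) _ (enc_length_le r P))
  have := ED_ctx (x.flatMap (enc r P)) (y.flatMap (enc r P))
    (List.replicate (n - (2 * (P * r) + 3) * x.length) false) []
  simp only [append_nil] at this
  rwa [bin, bin, ← hxy]

theorem ED_bin_ge (n r P F : ℕ) (x y : List (List ℕ))
    (hx : ∀ a ∈ x, a.length = r ∧ ∀ c ∈ a, c < P) (hy : ∀ a ∈ y, a.length = r ∧ ∀ c ∈ a, c < P)
    (hF : ∀ w, w <+ x → w <+ y → w.length ≤ F) :
    x.length ≤ F + (2 * (P * r) + 4) * ED (bin n r P x) (bin n r P y) := by
  have e1 : dec (2 * (P * r) + 3) (bin n r P x) = x.map (enc r P) := by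
    rw [bin, dec_pad, dec_flatMap_enc r P x (fun a ha => (hx a ha).1)]
  have e2 : dec (2 * (P * r) + 3) (bin n r P y) = y.map (enc r P) := by
    rw [bin, dec_pad, dec_flatMap_enc r P y (fun a ha => (hy a ha).1)]
  obtain ⟨z, h1, h2, h3⟩ := (edits_ED (bin n r P x) (bin n r P y)).common (2 * (P * r) + 3)
    (by omega) _ (Sublist.refl _)
  rw [e1] at h1 h3
  rw [e2] at h2
  obtain ⟨x', hx', rfl⟩ := sublist_map_iff.1 h1
  obtain ⟨y', hy', e3⟩ := sublist_map_iff.1 h2
  have e4 : x' = y' := map_injOn (enc r P) (fun a => a.length = r ∧ ∀ c ∈ a, c < P)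
    (enc_inj r P) x' y' (fun a ha => hx a (hx'.subset ha)) (fun a ha => hy a (hy'.subset ha)) e3
  subst e4
  have := hF x' hx' hy'
  simp only [length_map] at h3
  calc x.length ≤ x'.length + (2 * (P * r) + 3 + 1) * ED (bin n r P x) (bin n r P y) := h3
    _ ≤ _ := by
      rw [show 2 * (P * r) + 3 + 1 = 2 * (P * r) + 4 by ring]
      omega

end Vale.Agent.P238
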