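import Mathlib

namespace Vale.Agent.P238

open Finset

theorem root_unity_dist (ζ : ℂ) (Q : ℕ) (hQ : 0 < Q) (h1 : ζ ^ Q = 1) (hne : ζ ≠ 1) :
    1 ≤ (Q : ℝ) * ‖1 - ζ‖ := by
  have hn : ‖ζ‖ = 1 := Complex.norm_eq_one_of_pow_eq_one h1 hQ.ne'
  have hsum : ∑ j ∈ range Q, ζ ^ j = 0 := by
    have := mul_neg_geom_sum ζ Q
    rw [h1, sub_self] at this
    rcases mul_eq_zero.1 this with h | h
    · exact absurd (sub_eq_zero.1 h).symm hne
    · exact h
  have hj : ∀ j : ℕ, ‖1 - ζ ^ j‖ ≤ j * ‖1 - ζ‖ := by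
    intro j
    induction j with
    | zero => simp
    | succ j ih =>
      have : 1 - ζ ^ (j + 1) = (1 - ζ ^ j) + ζ ^ j * (1 - ζ) := by ring
      rw [this]
      refine (norm_add_le _ _).trans ?_
      rw [norm_mul, norm_pow, hn, one_pow, one_mul]
      push_cast
      linarith
  have h2 : (Q : ℂ) = ∑ j ∈ range Q, (1 - ζ ^ j) := by
    rw [sum_sub_distrib, hsum]
    simp
  have h3 : (Q : ℝ) ≤ ∑ j ∈ range Q, (Q : ℝ) * ‖1 - ζ‖ := by
    calc (Q : ℝ) = ‖(Q : ℂ)‖ := by simp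
      _ = ‖∑ j ∈ range Q, (1 - ζ ^ j)‖ := by rw [← h2]
      _ ≤ ∑ j ∈ range Q, ‖1 - ζ ^ j‖ := norm_sum_le _ _
      _ ≤ _ := by
        refine sum_le_sum fun j hjQ => (hj j).trans ?_
        have : (j : ℝ) ≤ Q := by exact_mod_cast (mem_range.1 hjQ).le
        exact mul_le_mul_of_nonneg_right this (norm_nonneg _)
  rw [sum_const, card_range, nsmul_eq_mul] at h3
  have hQ' : (0 : ℝ) < Q := by exact_mod_cast hQ
  nlinarith

variable {G : Type} [AddCommGroup G] [Fintype G]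

theorem parseval (u : G → ℂ) :
    ∑ ψ : AddChar G ℂ, ‖∑ y, u y * ψ (-y)‖ ^ 2 = Fintype.card G * ∑ y, ‖u y‖ ^ 2 := by
  classical
  have key : ∑ ψ : AddChar G ℂ, ((‖∑ y, u y * ψ (-y)‖ ^ 2 : ℝ) : ℂ) =
      ((Fintype.card G * ∑ y, ‖u y‖ ^ 2 : ℝ) : ℂ) := by
    have h1 : ∀ ψ : AddChar G ℂ, ((‖∑ y, u y * ψ (-y)‖ ^ 2 : ℝ) : ℂ) =
        ∑ y, ∑ y', u y * (starRingEnd ℂ) (u y') * ψ (y' - y) := by
      intro ψ
      rw [← Complex.normSq_eq_norm_sq, ← Complex.mul_conj, map_sum, sum_mul_sum]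
      refine sum_congr rfl fun y _ => sum_congr rfl fun y' _ => ?_
      rw [map_mul, ← AddChar.map_neg_eq_conj, neg_neg, sub_eq_add_neg, AddChar.map_add_eq_mul]
      ring
    simp_rw [h1]
    rw [sum_comm]
    push_cast
    rw [mul_sum]
    refine sum_congr rfl fun y _ => ?_
    rw [sum_comm]
    simp_rw [← mul_sum, AddChar.sum_apply_eq_ite, sub_eq_zero]
    rw [Fintype.sum_eq_single y]
    · rw [if_pos rfl, Complex.mul_conj, Complex.normSq_eq_norm_sq]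
      push_cast
      ring
    · intro y' hy'
      rw [if_neg hy', mul_zero]
  exact_mod_cast key

theorem energy_eq (g : G → ℝ) (a : G) :
    ∑ ψ : AddChar G ℂ, ‖∑ y, (g y : ℂ) * ψ (-y)‖ ^ 2 * ‖1 - ψ a‖ ^ 2 =
      Fintype.card G * ∑ y, (g y - g (y + a)) ^ 2 := by
  have := parseval (fun y => ((g y - g (y + a) : ℝ) : ℂ))
  simp only [Complex.norm_real, Real.norm_eq_abs, sq_abs] at this
  rw [← this]
  refine sum_congr rfl fun ψ _ => ?_
  rw [← mul_pow, ← norm_mul]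
  congr 2
  have h2 : ∑ y, (g (y + a) : ℂ) * ψ (-y) = (∑ y, (g y : ℂ) * ψ (-y)) * ψ a := by
    rw [sum_mul, ← Equiv.sum_comp (Equiv.addRight a) (fun y => (g y : ℂ) * ψ (-y) * ψ a)]
    refine sum_congr rfl fun y _ => ?_
    rw [Equiv.coe_addRight, mul_assoc, ← AddChar.map_add_eq_mul]
    have : -(y + a) + a = -y := by abel
    simp only [this]
  push_cast
  simp_rw [sub_mul]
  rw [sum_sub_distrib, h2]
  ring

theorem poincare_sq {ι : Type} [Fintype ι] (h : ι → G) (w : ι → ℝ) (δ : G)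
    (hψ : ∀ ψ : AddChar G ℂ, ‖1 - ψ δ‖ ^ 2 ≤ ∑ i, w i * ‖1 - ψ (h i)‖ ^ 2) (g : G → ℝ) :
    ∑ y, (g y - g (y + δ)) ^ 2 ≤ ∑ i, w i * ∑ y, (g y - g (y + h i)) ^ 2 := by
  have hc : (0 : ℝ) < Fintype.card G := by exact_mod_cast Fintype.card_pos
  refine le_of_mul_le_mul_left ?_ hc
  rw [← energy_eq, mul_sum]
  have : ∀ i, (Fintype.card G : ℝ) * (w i * ∑ y, (g y - g (y + h i)) ^ 2) =
      ∑ ψ : AddChar G ℂ, ‖∑ y, (g y : ℂ) * ψ (-y)‖ ^ 2 * (w i * ‖1 - ψ (h i)‖ ^ 2) := by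
    intro i
    rw [mul_left_comm, ← energy_eq, mul_sum]
    refine sum_congr rfl fun ψ _ => by ring
  simp_rw [this]
  rw [sum_comm]
  refine sum_le_sum fun ψ _ => ?_
  rw [← mul_sum]
  exact mul_le_mul_of_nonneg_left (hψ ψ) (by positivity)

theorem cut_sq_eq (a b : ℝ) :
    (fun s : ℝ => ((if s < a then (1 : ℝ) else 0) - (if s < b then (1 : ℝ) else 0)) ^ 2) =
      (Set.Ico (min a b) (max a b)).indicator (fun _ => (1 : ℝ)) := by
  funext s
  simp only [Set.indicator, Set.mem_Ico, min_le_iff, lt_max_iff]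
  by_cases h1 : s < a <;> by_cases h2 : s < b
  · simp [h1, h2, not_le.2 h1, not_le.2 h2]
  · simp [h1, h2, not_lt.1 h2]
  · simp [h1, h2, not_lt.1 h1]
  · simp [h1, h2]

theorem cut_integrable (a b : ℝ) : MeasureTheory.Integrable
    (fun s : ℝ => ((if s < a then (1 : ℝ) else 0) - (if s < b then (1 : ℝ) else 0)) ^ 2) := by
  rw [cut_sq_eq, MeasureTheory.integrable_indicator_iff measurableSet_Ico]
  exact MeasureTheory.integrableOn_const (by simp)

theorem cut_integral (a b : ℝ) :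
    ∫ s : ℝ, ((if s < a then (1 : ℝ) else 0) - (if s < b then (1 : ℝ) else 0)) ^ 2 = |a - b| := by
  rw [cut_sq_eq, MeasureTheory.integral_indicator_const _ measurableSet_Ico]
  simp only [Real.volume_real_Ico, smul_eq_mul, mul_one]
  rw [max_sub_min_eq_abs, abs_sub_comm, max_eq_left (abs_nonneg _)]

theorem poincare_abs {ι : Type} [Fintype ι] (h : ι → G) (w : ι → ℝ) (δ : G)
    (hψ : ∀ ψ : AddChar G ℂ, ‖1 - ψ δ‖ ^ 2 ≤ ∑ i, w i * ‖1 - ψ (h i)‖ ^ 2) (f : G → ℝ) :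
    ∑ y, |f y - f (y + δ)| ≤ ∑ i, w i * ∑ y, |f y - f (y + h i)| := by
  simp_rw [← cut_integral]
  rw [← MeasureTheory.integral_finsetSum _ (fun y _ => cut_integrable _ _)]
  have : ∀ i, w i * ∑ y, ∫ s : ℝ, ((if s < f y then (1 : ℝ) else 0) -
      (if s < f (y + h i) then (1 : ℝ) else 0)) ^ 2 =
      ∫ s : ℝ, w i * ∑ y, ((if s < f y then (1 : ℝ) else 0) -
        (if s < f (y + h i) then (1 : ℝ) else 0)) ^ 2 := by
    intro i
    rw [MeasureTheory.integral_const_mul,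
      MeasureTheory.integral_finsetSum _ (fun y _ => cut_integrable _ _)]
  simp_rw [this]
  have hint : ∀ i, MeasureTheory.Integrable (fun s : ℝ => w i * ∑ y,
      ((if s < f y then (1 : ℝ) else 0) - (if s < f (y + h i) then (1 : ℝ) else 0)) ^ 2) :=
    fun i => (MeasureTheory.integrable_finsetSum _ (fun y _ => cut_integrable _ _)).const_mul _
  rw [← MeasureTheory.integral_finsetSum _ (fun i _ => hint i)]
  refine MeasureTheory.integral_mono
    (MeasureTheory.integrable_finsetSum _ (fun y _ => cut_integrable _ _))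
    (MeasureTheory.integrable_finsetSum _ (fun i _ => hint i)) fun s => ?_
  exact poincare_sq h w δ hψ (fun y => if s < f y then (1 : ℝ) else 0)

theorem hasSum_l1 (u : lp (fun _ : ℕ => ℝ) 1) : HasSum (fun j => |u j|) ‖u‖ := by
  have := lp.hasSum_norm (p := 1) (by simp) u
  simpa using this

theorem poincare_l1 {ι : Type} [Fintype ι] (h : ι → G) (w : ι → ℝ) (δ : G)
    (hψ : ∀ ψ : AddChar G ℂ, ‖1 - ψ δ‖ ^ 2 ≤ ∑ i, w i * ‖1 - ψ (h i)‖ ^ 2)
    (F : G → lp (fun _ : ℕ => ℝ) 1) :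
    ∑ y, ‖F y - F (y + δ)‖ ≤ ∑ i, w i * ∑ y, ‖F y - F (y + h i)‖ := by
  have h1 : ∀ a : G, HasSum (fun j => ∑ y, |F y j - F (y + a) j|) (∑ y, ‖F y - F (y + a)‖) := by
    intro a
    refine hasSum_sum fun y _ => ?_
    simpa using hasSum_l1 (F y - F (y + a))
  refine hasSum_le (fun j => poincare_abs h w δ hψ (fun y => F y j)) (h1 δ) ?_
  exact hasSum_sum fun i _ => (h1 (h i)).mul_left (w i)

end Vale.Agent.P238
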