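import Vale.Agent.P238.Basic
import Vale.Agent.P238.Count

namespace Vale.Agent.P238

open Finset

/-- Bound for common subsequences of far pairs at height `h`. -/
def farB (M m κ : ℕ) : ℕ → ℕ
  | 0 => 0
  | h + 1 => M * m * farB M m κ h + κ * (2 * M) * (M * m) ^ h

theorem farB_eq (M m κ h : ℕ) : m * farB M m κ h = 2 * h * κ * (M * m) ^ h := by
  induction h with
  | zero => simp [farB]
  | succ h ih =>
    rw [farB, mul_add, mul_left_comm m, ih]
    ring

/-- A finite abelian group of states with a word attached to every state. -/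
structure Gadget (M m P g κ h q : ℕ) where
  G : Type
  [grp : AddCommGroup G]
  [fin : Fintype G]
  e : G
  W : G → List (List ℕ)
  ιn : Type
  [finn : Fintype ιn]
  nm : ιn → G
  ιl : Type
  [finl : Fintype ιl]
  lm : ιl → G
  len : ∀ z, (W z).length = (M * m) ^ h
  valid : ∀ z, ∀ a ∈ W z, a.length = 2 * h + 1 ∧ ∀ c ∈ a, c < P
  ord : q • e = 0
  costn : ∀ z, M * ∑ j, ED (W z) (W (z + nm j)) ≤ 2 * h * (M * m) ^ h
  costl : ∀ z, ∑ j, ED (W z) (W (z + lm j)) ≤ 2 * (M * m) ^ h
  chr : ∀ ψ : AddChar G ℂ, ψ e ≠ 1 →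
    1 ≤ ((P : ℝ) ^ g) ^ 2 * ∑ j, ‖1 - ψ (nm j)‖ ^ 2 ∨
      (g : ℝ) ^ h ≤ (P : ℝ) ^ 2 * ∑ j, ‖1 - ψ (lm j)‖ ^ 2
  far : ∀ z (a b : ℕ), ¬ a ≡ b [MOD q] → ∀ w : List (List ℕ), w.Sublist (W (z + a • e)) →
    w.Sublist (W (z + b • e)) → w.length ≤ farB M m κ h

attribute [instance] Gadget.grp Gadget.fin Gadget.finn Gadget.finl

/-- Height zero: a single symbol. -/
def Gadget.base (M m P g κ q : ℕ) [NeZero q] (hqP : q ≤ P) : Gadget M m P g κ 0 q where
  G := ZMod q
  e := 1
  W z := [[z.val]]
  ιn := Empty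
  nm := Empty.elim
  ιl := Unit
  lm _ := 1
  len z := by simp
  valid z a ha := by
    rw [List.mem_singleton] at ha
    subst ha
    refine ⟨rfl, fun c hc => ?_⟩
    rw [List.mem_singleton] at hc
    subst hc
    exact lt_of_lt_of_le (ZMod.val_lt z) hqP
  ord := by simp
  costn z := by simp
  costl z := by
    simpa using ED_le_len [[z.val]] [[(z + 1).val]]
  chr ψ hψ := by
    right
    have h1 : ψ 1 ^ q = 1 := by
      rw [← AddChar.map_nsmul_eq_pow]
      simp
    have h2 := root_unity_dist _ q (NeZero.pos q) h1 hψ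
    have h3 : (q : ℝ) ≤ P := by exact_mod_cast hqP
    have h4 : 1 ≤ (P : ℝ) * ‖1 - ψ 1‖ := h2.trans (mul_le_mul_of_nonneg_right h3 (norm_nonneg _))
    simp only [pow_zero, univ_unique, sum_singleton]
    rw [← mul_pow]
    exact one_le_pow₀ h4
  far z a b hab w h1 h2 := by
    rcases List.sublist_singleton.1 h1 with h | h
    · simp [h]
    · rcases List.sublist_singleton.1 h2 with h' | h'
      · simp [h']
      · exfalso
        apply hab
        have h3 : (z + a • (1 : ZMod q)).val = (z + b • (1 : ZMod q)).val := by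
          have := h.symm.trans h'
          simpa using this
        have h4 := ZMod.val_injective q h3
        simp only [nsmul_eq_mul, mul_one, add_right_inj] at h4
        exact (ZMod.natCast_eq_natCast_iff a b q).1 h4

section step

variable {M m P g κ h q : ℕ} [NeZero m] [NeZero q] {p : Fin m → ℕ}
  (Γ : (i : Fin m) → Gadget M m P g κ h (p i))

/-- States one level up. -/
abbrev StepG (q : ℕ) := ZMod q × ((i : Fin m) → (Γ i).G)

/-- The block in row `t` and column `i`. -/
def blk (z : StepG Γ q) (i : Fin m) (t : ℕ) : List (List ℕ) :=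
  ((Γ i).W (z.2 i + t • (Γ i).e)).map (fun a => i.val :: (z.1 + (t : ZMod q)).val :: a)

/-- The word one level up. -/
def stepW (z : StepG Γ q) : List (List ℕ) :=
  (List.range (M * m)).flatMap (fun β => blk Γ z (idx m β) (β / m))

/-- Inclusion of a child group. -/
def inc (q : ℕ) (i : Fin m) : (Γ i).G →+ StepG Γ q :=
  (AddMonoidHom.inr _ _).comp (AddMonoidHom.single (fun i => (Γ i).G) i)

omit [NeZero m] [NeZero q] in
theorem inc_apply (i : Fin m) (x : (Γ i).G) : inc Γ q i x = (0, Pi.single i x) := rfl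

omit [NeZero m] [NeZero q] in
theorem blk_length (z : StepG Γ q) (i : Fin m) (t : ℕ) : (blk Γ z i t).length = (M * m) ^ h := by
  rw [blk, List.length_map, (Γ i).len]

omit [NeZero m] [NeZero q] in
theorem length_flatMap_blk (z : StepG Γ q) (n : ℕ) (i : ℕ → Fin m) (t : ℕ → ℕ) :
    ((List.range n).flatMap (fun β => blk Γ z (i β) (t β))).length = n * (M * m) ^ h := by
  rw [List.length_flatMap]
  simp [blk_length]

omit [NeZero q] in
theorem cost_inc (ι : Fin m → Type) [∀ i, Fintype (ι i)] (mv : ∀ i, ι i → (Γ i).G)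
    (z : StepG Γ q) :
    ∑ x : (Σ i, ι i), ED (stepW Γ z) (stepW Γ (z + inc Γ q x.1 (mv x.1 x.2))) ≤
      ∑ β ∈ range (M * m), ∑ j : ι (idx m β),
        ED ((Γ (idx m β)).W (z.2 (idx m β) + (β / m) • (Γ (idx m β)).e))
          ((Γ (idx m β)).W (z.2 (idx m β) + (β / m) • (Γ (idx m β)).e + mv _ j)) := by
  refine le_trans (sum_le_sum fun x _ => ED_flatMap_range _ _ _) ?_
  rw [sum_comm]
  refine sum_le_sum fun β _ => ?_
  generalize idx m β = i
  generalize β / m = t
  rw [Fintype.sum_sigma, Fintype.sum_eq_single i]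
  · refine sum_le_sum fun j _ => ?_
    have : blk Γ (z + inc Γ q i (mv i j)) i t = ((Γ i).W (z.2 i + t • (Γ i).e + mv i j)).map
        (fun a => i.val :: (z.1 + (t : ZMod q)).val :: a) := by
      simp only [blk, inc_apply, Prod.snd_add, Pi.add_apply, Pi.single_eq_same, Prod.fst_add,
        add_zero]
      rw [add_right_comm]
    rw [this]
    exact ED_map_le _ _ _
  · intro i' hi'
    refine sum_eq_zero fun j _ => ?_
    have : blk Γ (z + inc Γ q i' (mv i' j)) i t = blk Γ z i t := by
      simp only [blk, inc_apply, Prod.snd_add, Pi.add_apply, Prod.fst_add, add_zero]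
      rw [Pi.single_eq_of_ne hi'.symm, add_zero]
    rw [this, ED_self]

omit [NeZero q] in
theorem cost_shift (z : StepG Γ q) :
    ED (stepW Γ z) (stepW Γ (z + (1, fun i => (Γ i).e))) ≤ 2 * m * (M * m) ^ h := by
  have hm : 0 < m := NeZero.pos m
  have h1 : ∀ β, blk Γ (z + (1, fun i => (Γ i).e)) (idx m β) (β / m) =
      blk Γ z (idx m (m + β)) ((m + β) / m) := by
    intro β
    have e1 : idx m (m + β) = idx m β := Fin.ext (by simp [idx])
    have e2 : (m + β) / m = β / m + 1 := by rw [add_comm, Nat.add_div_right _ hm]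
    rw [e1, e2]
    simp only [blk, Prod.snd_add, Pi.add_apply, Prod.fst_add, succ_nsmul, Nat.cast_add,
      Nat.cast_one]
    rw [add_right_comm (z.2 _), add_right_comm z.1, add_assoc, add_assoc]
  have h2 := ED_shift (stepW Γ z) (stepW Γ (z + (1, fun i => (Γ i).e)))
    ((List.range m).flatMap (fun β => blk Γ z (idx m β) (β / m)))
    ((List.range m).flatMap (fun β => blk Γ z (idx m (M * m + β)) ((M * m + β) / m))) (by
      simp only [stepW, h1]
      have a1 := List.range_add (n := M * m) (m := m)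
      have a2 := List.range_add (n := m) (m := M * m)
      rw [add_comm m, a1] at a2
      have := congrArg (List.flatMap (fun β => blk Γ z (idx m β) (β / m))) a2
      simpa only [List.flatMap_append, List.flatMap_map] using this)
  rw [length_flatMap_blk, length_flatMap_blk] at h2
  linarith

omit [NeZero m] in
theorem blk_common (z : StepG Γ q) (a b : ℕ) (hab : ¬ a ≡ b [MOD q]) (i i' : Fin m) (t t' : ℕ)
    (w : List (List ℕ)) (h1 : w.Sublist (blk Γ (z + a • ((1, 0) : StepG Γ q)) i t))
    (h2 : w.Sublist (blk Γ (z + b • ((1, 0) : StepG Γ q)) i' t')) :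
    w.length ≤ (if i.val = i'.val then farB M m κ h else 0) +
      (if i.val = i'.val ∧ t ≠ t' ∧ t ≡ t' [MOD p i] then (M * m) ^ h else 0) := by
  rcases w with _ | ⟨x, w⟩
  · simp
  have hx1 := h1.subset (List.mem_cons_self)
  have hx2 := h2.subset (List.mem_cons_self)
  simp only [blk, List.mem_map] at hx1 hx2
  obtain ⟨y1, -, hy1⟩ := hx1
  obtain ⟨y2, -, hy2⟩ := hx2
  have hy := hy1.trans hy2.symm
  simp only [List.cons.injEq] at hy
  obtain ⟨hi, ht, -⟩ := hy
  have hii : i = i' := Fin.ext hi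
  subst hii
  have htt : t ≠ t' := by
    rintro rfl
    apply hab
    have h4 := ZMod.val_injective q ht
    simp only [Prod.fst_add, Prod.smul_fst, nsmul_eq_mul, mul_one, add_left_inj,
      add_right_inj] at h4
    exact (ZMod.natCast_eq_natCast_iff a b q).1 h4
  by_cases hmod : t ≡ t' [MOD p i]
  · have := h1.length_le
    rw [blk_length] at this
    rw [if_pos rfl, if_pos ⟨rfl, htt, hmod⟩]
    omega
  · rw [if_pos rfl]
    refine le_trans ?_ (Nat.le_add_right _ _)
    simp only [blk] at h1 h2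
    rw [← ht] at h2
    obtain ⟨u1, hu1, e1⟩ := List.sublist_map_iff.1 h1
    obtain ⟨u2, hu2, e2⟩ := List.sublist_map_iff.1 h2
    have e3 : u1 = u2 := by
      refine List.map_injective_iff.2 ?_ (e1.symm.trans e2)
      intro c d hcd
      simpa using hcd
    subst e3
    simp only [Prod.snd_add, Prod.smul_snd, smul_zero, add_zero] at hu1 hu2
    rw [e1, List.length_map]
    exact (Γ i).far (z.2 i) t t' hmod u1 hu1 hu2

/-- One level up. -/
def Gadget.step (hqP : q ≤ P) (hmP : m ≤ P) (hm : 2 ≤ m) (hM : M ≤ 2 ^ κ)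
    (hp : ∀ i, (p i).Prime) (hinj : Function.Injective p) (hpP : ∀ i, p i ≤ P)
    (hcop : ∀ i, Nat.Coprime (p i) q) : Gadget M m P g κ (h + 1) q where
  G := StepG Γ q
  e := (1, 0)
  W := stepW Γ
  ιn := Option (Σ i, (Γ i).ιn)
  nm x := x.elim (1, fun i => (Γ i).e) (fun x => inc Γ q x.1 ((Γ x.1).nm x.2))
  ιl := Σ i, (Γ i).ιl
  lm x := inc Γ q x.1 ((Γ x.1).lm x.2)
  len z := by
    rw [stepW, length_flatMap_blk]
    ring
  valid z a ha := by
    simp only [stepW, List.mem_flatMap, blk, List.mem_map] at ha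
    obtain ⟨β, -, y, hy, rfl⟩ := ha
    obtain ⟨h1, h2⟩ := (Γ _).valid _ y hy
    refine ⟨by simp only [List.length_cons, h1]; ring, fun c hc => ?_⟩
    simp only [List.mem_cons] at hc
    rcases hc with rfl | rfl | hc
    · exact lt_of_lt_of_le (idx m β).2 hmP
    · exact lt_of_lt_of_le (ZMod.val_lt _) hqP
    · exact h2 c hc
  ord := by simp
  costn z := by
    rw [Fintype.sum_option]
    have h1 := cost_shift Γ z
    have h2 := cost_inc Γ (fun i => (Γ i).ιn) (fun i => (Γ i).nm) z
    have h3 : M * ∑ β ∈ range (M * m), ∑ j : (Γ (idx m β)).ιn,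
        ED ((Γ (idx m β)).W (z.2 (idx m β) + (β / m) • (Γ (idx m β)).e))
          ((Γ (idx m β)).W (z.2 (idx m β) + (β / m) • (Γ (idx m β)).e + (Γ _).nm j)) ≤
        (M * m) * (2 * h * (M * m) ^ h) := by
      rw [mul_sum]
      refine le_trans (sum_le_sum fun β _ => (Γ _).costn _) ?_
      simp
    have h4 := Nat.mul_le_mul_left M h1
    have h5 := Nat.mul_le_mul_left M h2
    simp only [Option.elim]
    rw [mul_add]
    refine le_trans (add_le_add h4 (h5.trans h3)) (le_of_eq ?_)
    ring
  costl z := by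
    refine le_trans (cost_inc Γ (fun i => (Γ i).ιl) (fun i => (Γ i).lm) z) ?_
    refine le_trans (sum_le_sum fun β _ => (Γ _).costl _) (le_of_eq ?_)
    simp only [sum_const, card_range, smul_eq_mul]
    ring
  chr ψ hψ := by
    classical
    set S := univ.filter (fun i => ψ (inc Γ q i (Γ i).e) ≠ 1) with hS
    have hP0 : (0 : ℝ) ≤ ((P : ℝ) ^ g) ^ 2 := by positivity
    by_cases hc : S.card < g
    · left
      have e1 : ((1, fun i => (Γ i).e) : StepG Γ q) = (1, 0) + ∑ i, inc Γ q i (Γ i).e := by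
        have : ∑ i, inc Γ q i (Γ i).e = (0, fun i => (Γ i).e) := by
          simp only [inc, AddMonoidHom.comp_apply]
          rw [← map_sum]
          simp only [AddMonoidHom.single_apply, univ_sum_single, AddMonoidHom.inr_apply]
        rw [this]
        simp
      have e2 : ψ (1, fun i => (Γ i).e) = ψ (1, 0) * ∏ i ∈ S, ψ (inc Γ q i (Γ i).e) := by
        rw [e1, AddChar.map_add_eq_mul, addChar_map_sum, hS, prod_filter_ne_one]
      have h1 := root_prod_dist S p q P g (ψ (1, 0)) (fun i => ψ (inc Γ q i (Γ i).e))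
        (NeZero.pos q) hqP (fun i => (hp i).pos) hpP hcop
        (by
          have e3 : q • ((1, 0) : StepG Γ q) = 0 := by simp
          rw [← AddChar.map_nsmul_eq_pow, e3, ψ.map_zero_eq_one])
        (fun i => by rw [← AddChar.map_nsmul_eq_pow, ← map_nsmul, (Γ i).ord]; simp) hψ hc
      rw [← e2] at h1
      refine h1.trans (mul_le_mul_of_nonneg_left ?_ hP0)
      rw [Fintype.sum_option]
      simp only [Option.elim]
      exact le_add_of_nonneg_right (sum_nonneg fun _ _ => by positivity)
    · by_cases hex : ∃ i ∈ S, 1 ≤ ((P : ℝ) ^ g) ^ 2 *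
          ∑ j, ‖1 - ψ (inc Γ q i ((Γ i).nm j))‖ ^ 2
      · left
        obtain ⟨i, -, hi⟩ := hex
        refine hi.trans (mul_le_mul_of_nonneg_left ?_ hP0)
        rw [Fintype.sum_option, Fintype.sum_sigma]
        simp only [Option.elim]
        refine le_add_of_nonneg_of_le (by positivity) ?_
        exact single_le_sum (f := fun i => ∑ j, ‖1 - ψ (inc Γ q i ((Γ i).nm j))‖ ^ 2)
          (fun _ _ => sum_nonneg fun _ _ => by positivity) (mem_univ i)
      · right
        have h1 : ∀ i ∈ S, (g : ℝ) ^ h ≤ (P : ℝ) ^ 2 *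
            ∑ j, ‖1 - ψ (inc Γ q i ((Γ i).lm j))‖ ^ 2 := by
          intro i hi
          rcases (Γ i).chr (ψ.compAddMonoidHom (inc Γ q i)) (mem_filter.1 hi).2 with h | h
          · exact absurd ⟨i, hi, h⟩ hex
          · exact h
        have h2 := card_nsmul_le_sum S _ _ h1
        rw [nsmul_eq_mul] at h2
        have h3 : (g : ℝ) ≤ S.card := by exact_mod_cast not_lt.1 hc
        rw [Fintype.sum_sigma, mul_sum, pow_succ']
        refine le_trans (mul_le_mul_of_nonneg_right h3 (by positivity)) (h2.trans ?_)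
        exact sum_le_sum_of_subset_of_nonneg (subset_univ _) fun _ _ _ =>
          mul_nonneg (by positivity) (sum_nonneg fun _ _ => by positivity)
  far z a b hab w h1 h2 := by
    obtain ⟨C, hC1, hC2, hC3⟩ := chain_lemma _ _ (M * m)
      (fun β β' => (if β % m = β' % m then farB M m κ h else 0) +
        (if β % m = β' % m ∧ β / m ≠ β' / m ∧ β / m ≡ β' / m [MOD p (idx m β)]
          then (M * m) ^ h else 0))
      (fun β _ β' _ w h1 h2 => blk_common Γ z a b hab (idx m β) (idx m β') (β / m) (β' / m) w h1 h2)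
      _ (M * m) (M * m) rfl le_rfl le_rfl w h1 h2
    refine hC3.trans ?_
    rw [sum_add_distrib, ← sum_filter, ← sum_filter, sum_const, sum_const, smul_eq_mul,
      smul_eq_mul, farB]
    exact add_le_add (Nat.mul_le_mul_right _ (chain_card_cong C _ m hm hC1 hC2))
      (Nat.mul_le_mul_right _ (chain_card_good C M m κ p hp hinj hM hC1 hC2))

end step

theorem exists_gadget (M m P g κ k : ℕ) (hm : 2 ≤ m) (hmP : m ≤ P) (hM : M ≤ 2 ^ κ)
    (hP : ∀ j < (k + 1) * m, Nat.nth Nat.Prime j ≤ P) :
    ∀ h ≤ k, ∀ i < m, Nonempty (Gadget M m P g κ h (Nat.nth Nat.Prime (h * m + i))) := by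
  have : NeZero m := ⟨by omega⟩
  intro h
  induction h with
  | zero =>
    intro _ i hi
    have : NeZero (Nat.nth Nat.Prime (0 * m + i)) := ⟨(Nat.prime_nth_prime _).ne_zero⟩
    exact ⟨Gadget.base M m P g κ _ (hP _ (by nlinarith))⟩
  | succ h ih =>
    intro hk i hi
    have : NeZero (Nat.nth Nat.Prime ((h + 1) * m + i)) := ⟨(Nat.prime_nth_prime _).ne_zero⟩
    have hinj := Nat.nth_injective Nat.infinite_setOfPred_prime
    refine ⟨Gadget.step (p := fun j : Fin m => Nat.nth Nat.Prime (h * m + j))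
      (fun j => Classical.choice (ih (by omega) j j.2)) (hP _ (by nlinarith)) hmP hm hM
      (fun j => Nat.prime_nth_prime _) ?_ (fun j => hP _ (by have := j.2; nlinarith)) ?_⟩
    · intro j j' hjj
      exact Fin.ext (by have := hinj hjj; omega)
    · intro j
      refine (Nat.coprime_primes (Nat.prime_nth_prime _) (Nat.prime_nth_prime _)).2 fun hh => ?_
      have := hinj hh
      have := j.2
      nlinarith

end Vale.Agent.P238
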