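import Vale.Agent.P238.Gadget
import Vale.Agent.P238.Encode

namespace Vale.Agent.P238

open Finset

theorem exists_injective_l1 (X : Type) [Fintype X] :
    ∃ f : X → lp (fun _ : ℕ => ℝ) 1, Function.Injective f := by
  refine ⟨fun x => lp.single 1 0 ((Fintype.equivFin X x : ℕ) : ℝ), fun x y hxy => ?_⟩
  have := congrArg (fun u : lp (fun _ : ℕ => ℝ) 1 => u 0) hxy
  simp only [lp.single_apply_self, Nat.cast_inj] at this
  exact (Fintype.equivFin X).injective (Fin.ext this)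

theorem le_c1 (X : Type) [Fintype X] (ρ : X → X → ℝ) (hpos : ∀ x y, x ≠ y → 0 < ρ x y)
    (hzero : ∀ x, ρ x x = 0) (D : ℝ)
    (h : ∀ (f : X → lp (fun _ : ℕ => ℝ) 1) (A B : ℝ), 0 ≤ A → 0 ≤ B →
      (∀ x y, ‖f x - f y‖ ≤ A * ρ x y) → (∀ x y, ρ x y ≤ B * ‖f x - f y‖) → D ≤ A * B) :
    D ≤ c1 X ρ := by
  have : Nonempty {f : X → lp (fun _ : ℕ => ℝ) 1 // Function.Injective f} := by
    obtain ⟨f, hf⟩ := exists_injective_l1 X
    exact ⟨⟨f, hf⟩⟩
  refine le_ciInf fun f => h f.1 _ _ ?_ ?_ ?_ ?_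
  · exact Real.iSup_nonneg fun p => div_nonneg (norm_nonneg _) (hpos _ _ p.2).le
  · exact Real.iSup_nonneg fun p => div_nonneg (hpos _ _ p.2).le (norm_nonneg _)
  · intro x y
    by_cases hxy : x = y
    · simp [hxy, hzero]
    · rw [← div_le_iff₀ (hpos x y hxy)]
      exact le_ciSup (f := fun p : {p : X × X // p.1 ≠ p.2} =>
        ‖f.1 p.1.1 - f.1 p.1.2‖ / ρ p.1.1 p.1.2) (Set.finite_range _).bddAbove ⟨(x, y), hxy⟩
  · intro x y
    by_cases hxy : x = y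
    · simp [hxy, hzero]
    · rw [← div_le_iff₀ (norm_pos_iff.2 (sub_ne_zero.2 (f.2.ne hxy)))]
      exact le_ciSup (f := fun p : {p : X × X // p.1 ≠ p.2} =>
        ρ p.1.1 p.1.2 / ‖f.1 p.1.1 - f.1 p.1.2‖) (Set.finite_range _).bddAbove ⟨(x, y), hxy⟩

theorem ED_ofFn_pos (n : ℕ) (x y : Fin n → Bool) (h : x ≠ y) :
    (0 : ℝ) < ED (List.ofFn x) (List.ofFn y) := by
  have : ED (List.ofFn x) (List.ofFn y) ≠ 0 := fun h0 =>
    h (List.ofFn_injective (eq_of_ED_eq_zero h0))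
  exact_mod_cast Nat.pos_of_ne_zero this

theorem exists_ofFn (n : ℕ) (l : List Bool) (hl : l.length = n) :
    ∃ x : Fin n → Bool, List.ofFn x = l := by
  subst hl
  exact ⟨l.get, List.ofFn_get l⟩

theorem gadget_bound {M m P g κ k q : ℕ} (Γ : Gadget M m P g κ k q) (hq : 2 ≤ q) (n L : ℕ)
    (hL : L = 2 * (P * (2 * k + 1)) + 3) (hn : L * (M * m) ^ k ≤ n) (hm : 0 < m)
    (hκ : 4 * k * κ ≤ m) (hM0 : 0 < M) (hM : k * (P ^ g) ^ 2 * g ^ k ≤ M) (hP : 0 < P)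
    (hg : 0 < g) :
    (g : ℝ) ^ k / (64 * L * (L + 1) * P ^ 2) ≤
      c1 (Fin n → Bool) (fun x y => (ED (List.ofFn x) (List.ofFn y) : ℝ)) := by
  refine le_c1 _ _ (ED_ofFn_pos n) (fun x => by simp [ED_self]) _ fun f A B hA hB h1 h2 => ?_
  have hX : ∀ z : Γ.G, ∃ x : Fin n → Bool, List.ofFn x = bin n (2 * k + 1) P (Γ.W z) := fun z =>
    exists_ofFn n _ (bin_length _ _ _ _ (fun a ha => (Γ.valid z a ha).1)
      (by rw [Γ.len, ← hL]; exact hn))
  choose X hX using hX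
  set N := (M * m) ^ k with hN
  have hNpos : (0 : ℝ) < N := by positivity
  have hgk : (0 : ℝ) < (g : ℝ) ^ k := by positivity
  have hMpos : (0 : ℝ) < M := by positivity
  have hLpos : (0 : ℝ) < L := by rw [hL]; positivity
  have hPpos : (0 : ℝ) < P := by positivity
  have hP1 : (1 : ℝ) ≤ P := by exact_mod_cast hP
  have hcard : (0 : ℝ) < Fintype.card Γ.G := by exact_mod_cast Fintype.card_pos
  have hpoin := poincare_l1 (Sum.elim Γ.nm Γ.lm)
    (Sum.elim (fun _ => 4 * ((P : ℝ) ^ g) ^ 2) (fun _ => 4 * (P : ℝ) ^ 2 / (g : ℝ) ^ k)) Γ.e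
    (by
      intro ψ
      rw [Fintype.sum_sum_type]
      simp only [Sum.elim_inl, Sum.elim_inr, ← mul_sum]
      have a1 : 0 ≤ ∑ j, ‖1 - ψ (Γ.nm j)‖ ^ 2 := sum_nonneg fun _ _ => by positivity
      have a2 : 0 ≤ ∑ j, ‖1 - ψ (Γ.lm j)‖ ^ 2 := sum_nonneg fun _ _ => by positivity
      have b1 : 0 ≤ 4 * ((P : ℝ) ^ g) ^ 2 * ∑ j, ‖1 - ψ (Γ.nm j)‖ ^ 2 := by positivity
      have b2 : 0 ≤ 4 * (P : ℝ) ^ 2 / (g : ℝ) ^ k * ∑ j, ‖1 - ψ (Γ.lm j)‖ ^ 2 := by positivity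
      by_cases he : ψ Γ.e = 1
      · rw [he]
        simp only [sub_self, norm_zero]
        nlinarith
      have c1 : ‖1 - ψ Γ.e‖ ≤ 2 := by
        refine (norm_sub_le _ _).trans ?_
        rw [norm_one, AddChar.norm_apply]
        norm_num
      have c2 : ‖1 - ψ Γ.e‖ ^ 2 ≤ 4 := by nlinarith [norm_nonneg (1 - ψ Γ.e)]
      rcases Γ.chr ψ he with h | h
      · nlinarith
      · have : 4 ≤ 4 * (P : ℝ) ^ 2 / (g : ℝ) ^ k * ∑ j, ‖1 - ψ (Γ.lm j)‖ ^ 2 := by
          rw [div_mul_eq_mul_div, le_div_iff₀ hgk]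
          nlinarith
        linarith)
    (fun z => f (X z))
  have hup : ∀ z z' : Γ.G, ‖f (X z) - f (X z')‖ ≤ A * (2 * L) * ED (Γ.W z) (Γ.W z') := by
    intro z z'
    refine (h1 _ _).trans ?_
    rw [mul_assoc]
    refine mul_le_mul_of_nonneg_left ?_ hA
    rw [hX, hX]
    have := ED_bin_le n (2 * k + 1) P (Γ.W z) (Γ.W z') (by rw [Γ.len, Γ.len])
    rw [← hL] at this
    exact_mod_cast this
  have hlow : ∀ z : Γ.G, (N : ℝ) ≤ 2 * (L + 1) * B * ‖f (X z) - f (X (z + Γ.e))‖ := by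
    intro z
    have a1 := ED_bin_ge n (2 * k + 1) P (farB M m κ k) (Γ.W z) (Γ.W (z + Γ.e)) (Γ.valid _)
      (Γ.valid _) (fun w hw1 hw2 => Γ.far z 0 1
        (by
          intro h
          have := Nat.le_of_dvd one_pos ((Nat.modEq_iff_dvd' zero_le_one).1 h)
          omega) w (by simpa using hw1) (by simpa using hw2))
    rw [Γ.len, ← hX, ← hX, show 2 * (P * (2 * k + 1)) + 4 = L + 1 by rw [hL]] at a1
    have a2 : 2 * farB M m κ k ≤ N := by
      refine Nat.le_of_mul_le_mul_left ?_ hm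
      have := farB_eq M m κ k
      calc m * (2 * farB M m κ k) = 4 * k * κ * N := by rw [mul_left_comm, this]; ring
        _ ≤ m * N := Nat.mul_le_mul_right _ hκ
    have a3 : N ≤ 2 * (L + 1) * ED (List.ofFn (X z)) (List.ofFn (X (z + Γ.e))) := by
      rw [mul_assoc]
      omega
    have a4 : (N : ℝ) ≤ 2 * (L + 1) * ED (List.ofFn (X z)) (List.ofFn (X (z + Γ.e))) := by
      exact_mod_cast a3
    refine a4.trans ?_
    rw [mul_assoc _ B]
    exact mul_le_mul_of_nonneg_left (h2 _ _) (by positivity)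
  have hn1 : ∑ j, ∑ z, ‖f (X z) - f (X (z + Γ.nm j))‖ ≤
      Fintype.card Γ.G * (A * (2 * L) * (2 * k * N / M)) := by
    rw [sum_comm, ← nsmul_eq_mul, ← card_univ]
    refine sum_le_card_nsmul _ _ _ fun z _ => ?_
    refine (sum_le_sum fun j _ => hup z _).trans ?_
    rw [← mul_sum]
    refine mul_le_mul_of_nonneg_left ?_ (by positivity)
    rw [le_div_iff₀ hMpos, mul_comm]
    exact_mod_cast Γ.costn z
  have hl1 : ∑ j, ∑ z, ‖f (X z) - f (X (z + Γ.lm j))‖ ≤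
      Fintype.card Γ.G * (A * (2 * L) * (2 * N)) := by
    rw [sum_comm, ← nsmul_eq_mul, ← card_univ]
    refine sum_le_card_nsmul _ _ _ fun z _ => ?_
    refine (sum_le_sum fun j _ => hup z _).trans ?_
    rw [← mul_sum]
    refine mul_le_mul_of_nonneg_left ?_ (by positivity)
    exact_mod_cast Γ.costl z
  have hf1 : Fintype.card Γ.G * (N : ℝ) ≤
      2 * (L + 1) * B * ∑ z, ‖f (X z) - f (X (z + Γ.e))‖ := by
    rw [mul_sum, ← nsmul_eq_mul, ← card_univ]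
    exact card_nsmul_le_sum _ _ _ fun z _ => hlow z
  rw [Fintype.sum_sum_type] at hpoin
  simp only [Sum.elim_inl, Sum.elim_inr, ← mul_sum] at hpoin
  have hM' : (k : ℝ) * ((P : ℝ) ^ g) ^ 2 / M ≤ (P : ℝ) ^ 2 / (g : ℝ) ^ k := by
    rw [div_le_div_iff₀ hMpos hgk]
    have : (k : ℝ) * ((P : ℝ) ^ g) ^ 2 * (g : ℝ) ^ k ≤ M := by exact_mod_cast hM
    have h3 : (1 : ℝ) ≤ (P : ℝ) ^ 2 := one_le_pow₀ hP1
    nlinarith
  have hfin : ∑ z, ‖f (X z) - f (X (z + Γ.e))‖ ≤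
      Fintype.card Γ.G * N * (32 * A * L * ((P : ℝ) ^ 2 / (g : ℝ) ^ k)) := by
    refine hpoin.trans ?_
    refine (add_le_add (mul_le_mul_of_nonneg_left hn1 (by positivity))
      (mul_le_mul_of_nonneg_left hl1 (by positivity))).trans ?_
    have e1 : 4 * ((P : ℝ) ^ g) ^ 2 * (Fintype.card Γ.G * (A * (2 * L) * (2 * k * N / M))) =
        Fintype.card Γ.G * N * (16 * A * L) * ((k : ℝ) * ((P : ℝ) ^ g) ^ 2 / M) := by ring
    have e2 : 4 * (P : ℝ) ^ 2 / (g : ℝ) ^ k * (Fintype.card Γ.G * (A * (2 * L) * (2 * N))) =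
        Fintype.card Γ.G * N * (16 * A * L) * ((P : ℝ) ^ 2 / (g : ℝ) ^ k) := by ring
    rw [e1, e2]
    have := mul_le_mul_of_nonneg_left hM'
      (show (0 : ℝ) ≤ Fintype.card Γ.G * N * (16 * A * L) by positivity)
    linarith
  have h5 : Fintype.card Γ.G * (N : ℝ) * 1 ≤ Fintype.card Γ.G * (N : ℝ) *
      (2 * (L + 1) * B * (32 * A * L * ((P : ℝ) ^ 2 / (g : ℝ) ^ k))) := by
    have := hf1.trans (mul_le_mul_of_nonneg_left hfin (by positivity))
    linarith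
  have h6 := le_of_mul_le_mul_left h5 (by positivity)
  rw [div_le_iff₀ (by positivity)]
  have h7 : 2 * ((L : ℝ) + 1) * B * (32 * A * L * ((P : ℝ) ^ 2 / (g : ℝ) ^ k)) =
      A * B * (64 * L * (L + 1) * P ^ 2) / (g : ℝ) ^ k := by ring
  rwa [h7, le_div_iff₀ hgk, one_mul] at h6

theorem sq_add_one_lt_two_pow (r : ℕ) (hr : 5 ≤ r) : r ^ 2 + 1 < 2 ^ r := by
  induction r, hr using Nat.le_induction with
  | base => norm_num
  | succ r hr ih => rw [pow_succ 2 r]; nlinarith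

theorem nth_prime_le_sq (r j : ℕ) (hr : 5 ≤ r) (hj : j < r) : Nat.nth Nat.Prime j ≤ r ^ 2 := by
  have h1 : r ≤ Nat.primeCounting (r ^ 2) := by
    by_contra hlt
    have hlt := not_le.1 hlt
    have a1 := Chebyshev.two_pow_le_mul_lcmUpto (r ^ 2)
    have a2 : Nat.lcmUpto (r ^ 2) ≤ (r ^ 2) ^ Nat.primeCounting (r ^ 2) := by
      rw [Nat.lcmUpto_eq_prod_pow_log, ← Nat.primesLE_card_eq_primeCounting]
      exact prod_le_pow_card _ _ _ fun p _ => Nat.pow_log_le_self p (by positivity)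
    have a3 : (r ^ 2) ^ Nat.primeCounting (r ^ 2) ≤ (r ^ 2 + 1) ^ (r - 1) :=
      (Nat.pow_le_pow_left (Nat.le_succ _) _).trans
        (Nat.pow_le_pow_right (by positivity) (by omega))
    have a4 : (r ^ 2 + 1) * (r ^ 2 + 1) ^ (r - 1) = (r ^ 2 + 1) ^ r := by
      rw [← pow_succ']
      congr 1
      omega
    have a5 : (r ^ 2 + 1) ^ r < (2 ^ r) ^ r :=
      Nat.pow_lt_pow_left (sq_add_one_lt_two_pow r hr) (by omega)
    rw [← pow_mul, ← sq] at a5
    have a6 := Nat.mul_le_mul_left (r ^ 2 + 1) (a2.trans a3)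
    omega
  have h2 : j < Nat.count Nat.Prime (r ^ 2 + 1) := lt_of_lt_of_le hj h1
  exact Nat.lt_succ_iff.1 (Nat.nth_lt_of_lt_count h2)

theorem lower_k (k n : ℕ) (hk : 128 ≤ k) (hn : k ^ (26 * k ^ 2) ≤ n) :
    (k : ℝ) ^ (k - 53) ≤
      c1 (Fin n → Bool) (fun x y => (ED (List.ofFn x) (List.ofFn y) : ℝ)) := by
  have hk1 : 1 ≤ k := by omega
  have hpow : ∀ a b, a ≤ b → k ^ a ≤ k ^ b := fun a b h => Nat.pow_le_pow_right hk1 h
  have hk4 : 2 ≤ k ^ 4 :=
    le_trans (show 2 ≤ k by omega) (by simpa using hpow 1 4 (by norm_num))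
  obtain ⟨Γ⟩ := exists_gadget (k ^ (25 * k + 1)) (k ^ 4) (k ^ 12) k (k * (25 * k + 1)) k hk4
    (hpow _ _ (by norm_num))
    (by rw [pow_mul]; exact Nat.pow_le_pow_left Nat.lt_two_pow_self.le _)
    (fun j hj => by
      have := nth_prime_le_sq (k ^ 6) j
        (le_trans (show 5 ≤ k by omega) (by simpa using hpow 1 6 (by norm_num)))
        (lt_of_lt_of_le hj (by
          calc (k + 1) * k ^ 4 ≤ k ^ 2 * k ^ 4 := Nat.mul_le_mul_right _ (by nlinarith)
            _ = k ^ 6 := by ring))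
      rwa [← pow_mul] at this) k le_rfl 0 (by omega)
  set L := 2 * (k ^ 12 * (2 * k + 1)) + 3 with hL
  have hL1 : L + 1 ≤ k ^ 14 := by
    have h12 : 1 ≤ k ^ 12 := Nat.one_le_pow _ _ hk1
    have : k ^ 14 = k ^ 12 * (k * k) := by ring
    rw [this, hL]
    have h2 : 4 * k + 6 ≤ k * k := by nlinarith
    nlinarith
  have h := gadget_bound Γ (Nat.prime_nth_prime _).two_le n L hL
    (by
      refine le_trans ?_ hn
      calc L * (k ^ (25 * k + 1) * k ^ 4) ^ k ≤ k ^ 14 * (k ^ (25 * k + 1) * k ^ 4) ^ k :=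
            Nat.mul_le_mul_right _ (by omega)
        _ = k ^ (14 + (25 * k + 5) * k) := by rw [← pow_add, ← pow_mul, ← pow_add]
        _ ≤ _ := hpow _ _ (by nlinarith))
    (by omega)
    (by
      have : k ^ 4 = k * k * (k * k) := by ring
      rw [this]
      have h2 : 100 * k + 4 ≤ k * k := by nlinarith
      nlinarith)
    (by positivity)
    (by
      rw [← pow_mul, ← pow_mul, ← pow_succ', ← pow_add]
      exact hpow _ _ (by omega))
    (by positivity) (by omega)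
  refine le_trans ?_ h
  have hkpos : (0 : ℝ) < k := by positivity
  rw [le_div_iff₀ (by positivity)]
  have h1 : 64 * L * (L + 1) * (k ^ 12) ^ 2 ≤ k ^ 53 := by
    calc 64 * L * (L + 1) * (k ^ 12) ^ 2 ≤ k * k ^ 14 * k ^ 14 * (k ^ 12) ^ 2 := by
          gcongr <;> omega
      _ = k ^ 53 := by ring
  have h2 : (64 * L * (L + 1) * ((k ^ 12 : ℕ) : ℝ) ^ 2 : ℝ) ≤ (k : ℝ) ^ 53 := by exact_mod_cast h1
  calc (k : ℝ) ^ (k - 53) * (64 * L * (L + 1) * ((k ^ 12 : ℕ) : ℝ) ^ 2)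
      ≤ (k : ℝ) ^ (k - 53) * (k : ℝ) ^ 53 := mul_le_mul_of_nonneg_left h2 (by positivity)
    _ = (k : ℝ) ^ k := by rw [← pow_add]; congr 1; omega

theorem succ_le_sq (k : ℕ) (hk : 128 ≤ k) : k + 1 ≤ k ^ 2 := by nlinarith

theorem sqrt_bound (k n : ℕ) (hk : 128 ≤ k) (hn0 : 1 ≤ Real.log n)
    (hn : n < (k + 1) ^ (26 * (k + 1) ^ 2)) :
    Real.sqrt (Real.log n * Real.log (Real.log n)) ≤ 33 * (k * Real.log k) := by
  have hk' : (128 : ℝ) ≤ k := by exact_mod_cast hk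
  have hkpos : (0 : ℝ) < k := by linarith
  have hlogk : 0 < Real.log k := Real.log_pos (by linarith)
  have hlogk2 : Real.log k ≤ k := (Real.log_le_sub_one_of_pos hkpos).trans (by linarith)
  have hnpos : (0 : ℝ) < n := by
    rcases Nat.eq_zero_or_pos n with h | h
    · rw [h] at hn0; norm_num at hn0
    · exact_mod_cast h
  have h1 : Real.log n ≤ 208 * (k : ℝ) ^ 2 * Real.log k := by
    have a1 : (n : ℝ) ≤ ((k : ℝ) ^ 2) ^ (26 * (k + 1) ^ 2) := by
      have : n ≤ (k ^ 2) ^ (26 * (k + 1) ^ 2) :=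
        hn.le.trans (Nat.pow_le_pow_left (succ_le_sq k hk) _)
      exact_mod_cast this
    clear hn
    have a2 := Real.log_le_log hnpos a1
    generalize hE : 26 * (k + 1) ^ 2 = E at a2 a1
    have hE' : (E : ℝ) = 26 * ((k : ℝ) + 1) ^ 2 := by rw [← hE]; push_cast; ring
    clear a1 hE
    rw [Real.log_pow, Real.log_pow] at a2
    refine a2.trans ?_
    rw [hE']
    push_cast
    have a3 : ((k : ℝ) + 1) ^ 2 ≤ 4 * (k : ℝ) ^ 2 := by nlinarith
    nlinarith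
  clear hn
  have h2 : Real.log (Real.log n) ≤ 5 * Real.log k := by
    have a1 : Real.log n ≤ (k : ℝ) ^ 5 := by
      refine h1.trans ?_
      have a2 : (208 : ℝ) ≤ (k : ℝ) ^ 2 := by nlinarith
      calc 208 * (k : ℝ) ^ 2 * Real.log k ≤ (k : ℝ) ^ 2 * (k : ℝ) ^ 2 * k := by gcongr
        _ = (k : ℝ) ^ 5 := by ring
    have a2 := Real.log_le_log (by linarith) a1
    rw [Real.log_pow] at a2
    exact_mod_cast a2
  rw [Real.sqrt_le_left (by positivity)]
  have h3 : 0 ≤ Real.log (Real.log n) := Real.log_nonneg hn0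
  calc Real.log n * Real.log (Real.log n) ≤ (208 * (k : ℝ) ^ 2 * Real.log k) * (5 * Real.log k) := by
        gcongr
    _ ≤ _ := by nlinarith [sq_nonneg (k * Real.log k)]

theorem lower_bound : ∃ c : ℝ, 0 < c ∧ ∃ N : ℕ, ∀ n ≥ N,
    Real.exp (c * Real.sqrt (Real.log n * Real.log (Real.log n))) ≤
      c1 (Fin n → Bool) (fun x y => (ED (List.ofFn x) (List.ofFn y) : ℝ)) := by
  obtain ⟨K, hK⟩ : ∃ K : ℕ, 128 ≤ K := ⟨128, le_rfl⟩
  refine ⟨1 / 66, by norm_num, K ^ (26 * K ^ 2), fun n hn => ?_⟩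
  classical
  have hself : ∀ j : ℕ, 1 ≤ j → j ≤ j ^ (26 * j ^ 2) := fun j hj => by
    have : 1 ≤ 26 * j ^ 2 := by nlinarith
    simpa using Nat.pow_le_pow_right hj this
  have hKn : K ≤ n := (hself K (le_trans (by norm_num) hK)).trans hn
  set k := Nat.findGreatest (fun j => j ^ (26 * j ^ 2) ≤ n) n with hk
  have h1 : K ≤ k := Nat.le_findGreatest (P := fun j => j ^ (26 * j ^ 2) ≤ n) hKn hn
  have h2 : k ^ (26 * k ^ 2) ≤ n := Nat.findGreatest_spec (P := fun j => j ^ (26 * j ^ 2) ≤ n) hKn hn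
  have h3 : n < (k + 1) ^ (26 * (k + 1) ^ 2) := by
    by_contra h
    have h := not_lt.1 h
    exact Nat.findGreatest_is_greatest (P := fun j => j ^ (26 * j ^ 2) ≤ n) (Nat.lt_succ_self k)
      ((hself _ (Nat.succ_pos k)).trans h) h
  have hk128 : 128 ≤ k := hK.trans h1
  have hk53 : 53 ≤ k := le_trans (by norm_num) hk128
  have hlog : 1 ≤ Real.log n := by
    have : (128 : ℝ) ≤ n := by exact_mod_cast hK.trans hKn
    clear h2 h3 hn hself
    rw [Real.le_log_iff_exp_le (by linarith)]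
    linarith [Real.exp_one_lt_d9]
  refine le_trans ?_ (lower_k k n hk128 h2)
  have h4 := sqrt_bound k n hk128 hlog h3
  clear h2 h3 hn hself
  clear_value k
  have hk' : (128 : ℝ) ≤ k := by exact_mod_cast hk128
  have hlogk : 0 < Real.log k := Real.log_pos (by linarith)
  rw [← Real.exp_log (show (0 : ℝ) < (k : ℝ) ^ (k - 53) by positivity), Real.log_pow]
  refine Real.exp_le_exp.2 ?_
  rw [Nat.cast_sub hk53]
  push_cast
  nlinarith

end Vale.Agent.P238
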