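import Vale.Agent.P238.Lower
import Vale.Agent.P238.Cut

namespace Vale.Agent.P238

open Finset

/-- The first `L` symbols of the word padded with zeros. -/
def T (L : ℕ) (u : List Bool) : List Bool := (List.range L).map (fun p => u.getD p false)

theorem T_length (L : ℕ) (u : List Bool) : (T L u).length = L := by simp [T]

theorem T_add (L1 L2 : ℕ) (u : List Bool) : T (L1 + L2) u = T L1 u ++ T L2 (u.drop L1) := by
  simp [T, List.range_add, List.getD_eq_getElem?_getD, Function.comp_def]

theorem T_self (u : List Bool) : T u.length u = u := by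
  apply List.ext_getElem
  · simp [T]
  · intro i h1 h2
    simp [T, List.getD_eq_getElem?_getD, h2]

theorem T_append_of_le (L : ℕ) (p s : List Bool) (h : L ≤ p.length) : T L (p ++ s) = T L p := by
  unfold T
  refine List.map_congr_left fun i hi => ?_
  have := List.mem_range.1 hi
  simp only [List.getD_eq_getElem?_getD]
  rw [List.getElem?_append_left (by omega)]

theorem T_len_add (M : ℕ) (p s : List Bool) : T (p.length + M) (p ++ s) = p ++ T M s := by
  rw [T_add, T_append_of_le _ _ _ le_rfl, T_self, List.drop_left]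

theorem T_succ_cons (M : ℕ) (a : Bool) (s : List Bool) : T (M + 1) (a :: s) = a :: T M s := by
  have := T_len_add M [a] s
  simpa [add_comm] using this

theorem T_T (n L : ℕ) (h : n ≤ L) (u : List Bool) : T n (T L u) = T n u := by
  obtain ⟨M, rfl⟩ := Nat.exists_eq_add_of_le h
  rw [T_add, T_append_of_le _ _ _ (T_length n u).ge]
  have := T_self (T n u)
  rwa [T_length] at this

theorem ED_T_ins (L : ℕ) (p s : List Bool) (a : Bool) :
    ED (T L (p ++ s)) (T L (p ++ a :: s)) ≤ 2 := by
  rcases le_or_gt L p.length with h | h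
  · rw [T_append_of_le _ _ _ h, T_append_of_le _ _ _ h, ED_self]
    norm_num
  · obtain ⟨M, rfl⟩ := Nat.exists_eq_add_of_lt h
    rw [add_assoc, T_len_add, T_len_add, T_succ_cons, T_add]
    have h1 := ED_ctx (T M s ++ T 1 (s.drop M)) (a :: T M s) p []
    simp only [List.append_nil] at h1
    refine h1.trans ?_
    have h2 := ED_shift (a :: T M s) (T M s ++ T 1 (s.drop M)) [a] (T 1 (s.drop M)) (by simp)
    rw [ED_comm]
    simpa [T_length] using h2

theorem Step.ED_T {u v : List Bool} (h : Step u v) (L : ℕ) : ED (T L u) (T L v) ≤ 2 := by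
  cases h with
  | ins p s a => exact ED_T_ins L p s a
  | del p s a => rw [ED_comm]; exact ED_T_ins L p s a
  | sub p s a b =>
    rcases le_or_gt L p.length with h | h
    · rw [T_append_of_le _ _ _ h, T_append_of_le _ _ _ h, ED_self]
      norm_num
    · obtain ⟨M, rfl⟩ := Nat.exists_eq_add_of_lt h
      rw [add_assoc, T_len_add, T_len_add, T_succ_cons, T_succ_cons]
      exact (ED_le (Edits.single (Step.sub _ _ _ _))).trans (by norm_num)

theorem ED_T_le (L : ℕ) (u v : List Bool) : ED (T L u) (T L v) ≤ 2 * ED u v := by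
  have : ∀ k u v, Edits k u v → ED (T L u) (T L v) ≤ 2 * k := by
    intro k u v h
    induction h with
    | refl x => simp [ED_self]
    | @step k x y z hs _ ih =>
      have := ED_triangle (T L x) (T L y) (T L z)
      have h2 := hs.ED_T L
      omega
  exact this _ _ _ (edits_ED u v)

theorem ED_T_drop (L t : ℕ) (u : List Bool) : ED (T L u) (T L (u.drop t)) ≤ 2 * t := by
  have := ED_shift (T L u) (T L (u.drop t)) (T t u) (T t (u.drop L))
    (by rw [← T_add, ← T_add, add_comm])
  simp only [T_length] at this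
  omega

theorem T_blocks (b L : ℕ) (u : List Bool) :
    T (b * L) u = (List.range b).flatMap (fun i => T L (u.drop (i * L))) := by
  induction b with
  | zero => simp [T]
  | succ b ih => rw [List.range_succ, List.flatMap_append, ← ih, add_mul, one_mul, T_add]; simp

theorem Step.tail {u v : List Bool} (h : Step u v) : Step u.tail v.tail ∨ u.tail = v.tail := by
  have key : ∀ s : List Bool, Step s.tail s ∨ s.tail = s := by
    rintro (_ | ⟨c, s⟩)
    · exact Or.inr rfl
    · exact Or.inl (Step.ins [] s c)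
  cases h with
  | ins p s a =>
    rcases p with _ | ⟨c, p⟩
    · exact key s
    · exact Or.inl (Step.ins p s a)
  | del p s a =>
    rcases p with _ | ⟨c, p⟩
    · exact (key s).imp Step.symm Eq.symm
    · exact Or.inl (Step.del p s a)
  | sub p s a b =>
    rcases p with _ | ⟨c, p⟩
    · exact Or.inr rfl
    · exact Or.inl (Step.sub p s a b)

theorem Step.ED_drop {u v : List Bool} (h : Step u v) (q : ℕ) : ED (u.drop q) (v.drop q) ≤ 1 := by
  have : Step (u.drop q) (v.drop q) ∨ u.drop q = v.drop q := by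
    induction q with
    | zero => exact Or.inl h
    | succ q ih =>
      rw [← List.tail_drop, ← List.tail_drop]
      rcases ih with ih | ih
      · exact ih.tail
      · exact Or.inr (by rw [ih])
  rcases this with h | h
  · exact ED_le (Edits.single h)
  · rw [h, ED_self]; norm_num

theorem IsCut.le_ED {D : List Bool → List Bool → ℝ} (hD : IsCut D) (α : ℝ)
    (h : ∀ u v, Step u v → D u v ≤ α) (u v : List Bool) : D u v ≤ α * ED u v := by
  have : ∀ k u v, Edits k u v → D u v ≤ α * k := by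
    intro k u v he
    induction he with
    | refl x => simp [hD.self]
    | @step k x y z hs _ ih =>
      have := hD.triangle x y z
      have h2 := h _ _ hs
      push_cast
      linarith
  exact this _ _ _ (edits_ED u v)

/-- An `ℓ₁` pseudometric that approximates the edit distance of windows of length `L`. -/
def Good (L : ℕ) (α : ℝ) : Prop :=
  ∃ D : List Bool → List Bool → ℝ, IsCut D ∧ (∀ u v, D u v ≤ α * ED u v) ∧
    (∀ u v, (ED (T L u) (T L v) : ℝ) ≤ 20 * D u v) ∧ ∀ u v, T L u = T L v → D u v = 0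

theorem isCut_T (L : ℕ) : IsCut (fun u v => if T L u = T L v then (0 : ℝ) else 1) := by
  have := isCut_discrete (fun (u : List Bool) (p : Fin L) => u.getD p false)
  convert this using 4 with u v
  simp only [T, List.map_inj_left, List.mem_range, funext_iff]
  exact ⟨fun h p => h p p.2, fun h p hp => h ⟨p, hp⟩⟩

theorem ite_T_le (L : ℕ) (u v : List Bool) :
    (if T L u = T L v then (0 : ℝ) else 1) ≤ ED u v := by
  split_ifs with h
  · positivity
  · have : ED u v ≠ 0 := fun h0 => h (by rw [eq_of_ED_eq_zero h0])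
    exact_mod_cast Nat.pos_of_ne_zero this

theorem good_one : Good 1 1 := by
  refine ⟨_, isCut_T 1, fun u v => by simpa using ite_T_le 1 u v, fun u v => ?_,
    fun u v h => by simp [h]⟩
  split_ifs with h
  · simp [h, ED_self]
  · have := ED_le_len (T 1 u) (T 1 v)
    simp only [T_length] at this
    have h2 : (ED (T 1 u) (T 1 v) : ℝ) ≤ 2 := by exact_mod_cast this
    linarith

theorem card_near (b L p : ℕ) (hL : 0 < L) :
    ((range b).filter (fun i => i * L ≤ p ∧ p < i * L + 2 * L)).card ≤ 2 := by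
  refine le_trans (card_le_card (t := {p / L, p / L - 1}) ?_) card_le_two
  intro i hi
  obtain ⟨-, h1, h2⟩ := mem_filter.1 hi
  have a1 : i ≤ p / L := (Nat.le_div_iff_mul_le hL).2 h1
  have a2 : p / L < i + 2 := (Nat.div_lt_iff_lt_mul hL).2 (by rw [add_mul]; exact h2)
  simp only [mem_insert, mem_singleton]
  omega

theorem good_step (L b J : ℕ) (α : ℝ) (hL : 0 < L) (hJ : L < 2 ^ J) (hα : 0 ≤ α)
    (h : Good L α) : Good (b * L) (b + 2 * (J * (2 * b + 80 * (J + 1) * α))) := by
  obtain ⟨D, hD, hDu, hDl, hD0⟩ := h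
  have hs : ∀ j : ℕ, 0 < min (2 ^ j) L := fun j => lt_min (by positivity) hL
  have hr : ∀ j : ℕ, (0 : ℝ) < ((min (2 ^ j) L : ℕ) : ℝ) / (20 * (J + 1)) := fun j => by
    have := hs j
    positivity
  choose Φ hΦ hΦ1 hΦ2 hΦ3 using fun (j i : ℕ) => hD.emd _ (hr j) (min (2 ^ j) L)
    (fun t (u : List Bool) => u.drop (i * L + t))
  set D2 : List Bool → List Bool → ℝ := fun u v => ∑ j ∈ range J, ∑ i ∈ range b, Φ j i u v
    with hD2
  have hD2c : IsCut D2 := IsCut.sum_range J fun j => IsCut.sum_range b fun i => hΦ j i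
  have hnear : ∀ j i u v, Step u v → Φ j i u v ≤ 40 * (J + 1) * α := by
    intro j i u v huv
    refine (hΦ1 j i u v α fun t _ => (hDu _ _).trans ?_).trans (le_of_eq ?_)
    · have : (ED (u.drop (i * L + t)) (v.drop (i * L + t)) : ℝ) ≤ 1 := by
        exact_mod_cast huv.ED_drop _
      nlinarith
    · have := hs j
      field_simp
      ring
  have hfar : ∀ j i (p s s' : List Bool), i * L + 2 * L ≤ p.length →
      Φ j i (p ++ s) (p ++ s') ≤ 0 := by
    intro j i p s s' hp
    refine (hΦ1 j i _ _ 0 fun t ht => le_of_eq (hD0 _ _ ?_)).trans (by simp)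
    have ht' : t < L := lt_of_lt_of_le ht (min_le_right _ _)
    rw [List.drop_append_of_le_length (by omega), List.drop_append_of_le_length (by omega),
      T_append_of_le _ _ _ (by rw [List.length_drop]; omega),
      T_append_of_le _ _ _ (by rw [List.length_drop]; omega)]
  have hsum : ∀ (p : ℕ) u v, Step u v → (∀ j i, i * L + 2 * L ≤ p → Φ j i u v ≤ 0) →
      (∀ j i, p < i * L → Φ j i u v ≤ 2) → D2 u v ≤ J * (2 * b + 80 * (J + 1) * α) := by
    intro p u v huv h1 h2
    have h3 : ∀ j ∈ range J, ∑ i ∈ range b, Φ j i u v ≤ 2 * b + 80 * (J + 1) * α := by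
      intro j _
      have h4 : ∀ i ∈ range b, Φ j i u v ≤
          2 + (if i * L ≤ p ∧ p < i * L + 2 * L then 40 * (J + 1) * α else 0) := by
        intro i _
        split_ifs with hi
        · linarith [hnear j i u v huv]
        · rcases not_and_or.1 hi with hi | hi
          · linarith [h2 j i (not_le.1 hi)]
          · linarith [h1 j i (not_lt.1 hi)]
      refine (sum_le_sum h4).trans ?_
      rw [sum_add_distrib, ← sum_filter, sum_const, sum_const, card_range, nsmul_eq_mul,
        nsmul_eq_mul]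
      have h5 : (((range b).filter (fun i => i * L ≤ p ∧ p < i * L + 2 * L)).card : ℝ) ≤ 2 := by
        exact_mod_cast card_near b L p hL
      have h6 : 0 ≤ 40 * ((J : ℝ) + 1) * α := by positivity
      nlinarith
    refine (sum_le_card_nsmul _ _ _ h3).trans (le_of_eq ?_)
    rw [card_range, nsmul_eq_mul]
  have hins : ∀ (p s : List Bool) a, D2 (p ++ s) (p ++ a :: s) ≤
      J * (2 * b + 80 * (J + 1) * α) := by
    intro p s a
    refine hsum p.length _ _ (Step.ins p s a) (fun j i h => hfar j i p _ _ h) fun j i h => ?_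
    refine hΦ2 j i _ _ fun t => ?_
    obtain ⟨c, hc⟩ := Nat.exists_eq_add_of_le (show p.length ≤ i * L + t by omega)
    rw [← add_assoc, hc, add_assoc, List.drop_length_add_append, List.drop_length_add_append]
    rfl
  have hstep : ∀ u v, Step u v → D2 u v ≤ J * (2 * b + 80 * (J + 1) * α) := by
    intro u v huv
    cases huv with
    | ins p s a => exact hins p s a
    | del p s a => rw [hD2c.symm]; exact hins p s a
    | sub p s a a' =>
      refine hsum p.length _ _ (Step.sub p s a a') (fun j i h => hfar j i p _ _ h) fun j i h => ?_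
      refine (hΦ1 j i _ _ 0 fun t _ => le_of_eq ?_).trans (by simp)
      obtain ⟨c, hc⟩ := Nat.exists_eq_add_of_lt (show p.length < i * L + t by omega)
      rw [hc, add_assoc, List.drop_length_add_append, List.drop_length_add_append]
      exact hD.self _
  have hblock : ∀ i (u v : List Bool), (ED (T L (u.drop (i * L))) (T L (v.drop (i * L))) : ℝ) ≤
      20 * ((if u = v then 0 else 1) + ∑ j ∈ range J, Φ j i u v) := by
    intro i u v
    have hnn : 0 ≤ ∑ j ∈ range J, Φ j i u v := sum_nonneg fun j _ => (hΦ j i).nonneg _ _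
    split_ifs with huv
    · subst huv
      rw [ED_self]
      push_cast
      linarith
    set E := ED (T L (u.drop (i * L))) (T L (v.drop (i * L))) with hE
    by_cases hE20 : E ≤ 20
    · have : (E : ℝ) ≤ 20 := by exact_mod_cast hE20
      linarith
    have hEL : E ≤ L + L := by
      have := ED_le_len (T L (u.drop (i * L))) (T L (v.drop (i * L)))
      rwa [T_length, T_length] at this
    set j := Nat.log 2 (E / 5) with hj
    have a1 : 2 ^ j ≤ E / 5 := Nat.pow_log_le_self 2 (by omega)
    have a2 : E / 5 < 2 ^ (j + 1) := Nat.lt_pow_succ_log_self (by norm_num) _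
    rw [pow_succ] at a2
    have a3 : min (2 ^ j) L = 2 ^ j := min_eq_left (by omega)
    have a4 : j < J := (Nat.pow_lt_pow_iff_right (by norm_num)).1
      (lt_of_le_of_lt (show 2 ^ j ≤ L by omega) hJ)
    have a5 := hΦ3 j i u v (J + 1) (fun t ht t' ht' => by
      rw [a3] at ht ht' ⊢
      have b1 := hDl (u.drop (i * L + t)) (v.drop (i * L + t'))
      have b2 := ED_T_drop L t (u.drop (i * L))
      have b3 := ED_T_drop L t' (v.drop (i * L))
      rw [List.drop_drop] at b2 b3
      rw [ED_comm] at b3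
      have b4 := ED_triangle (T L (u.drop (i * L))) (T L (u.drop (i * L + t)))
        (T L (v.drop (i * L)))
      have b5 := ED_triangle (T L (u.drop (i * L + t))) (T L (v.drop (i * L + t')))
        (T L (v.drop (i * L)))
      have b6 : 2 ^ j ≤ ED (T L (u.drop (i * L + t))) (T L (v.drop (i * L + t'))) := by omega
      have b7 : ((2 ^ j : ℕ) : ℝ) ≤ ED (T L (u.drop (i * L + t))) (T L (v.drop (i * L + t'))) := by
        exact_mod_cast b6
      have b8 : ((2 ^ j : ℕ) : ℝ) / (20 * (J + 1)) * (J + 1) = ((2 ^ j : ℕ) : ℝ) / 20 := by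
        field_simp
      rw [b8]
      linarith)
    rw [a3] at a5
    have a6 : 2 * ((2 ^ j : ℕ) : ℝ) ≤ Real.exp (J + 1) := by
      have c1 : 2 * 2 ^ j ≤ 2 ^ (J + 1) := by
        rw [← pow_succ']
        exact Nat.pow_le_pow_right (by norm_num) (by omega)
      have c2 : (2 : ℝ) ^ (J + 1) ≤ Real.exp 1 ^ (J + 1) :=
        pow_le_pow_left₀ (by norm_num) (by linarith [Real.add_one_le_exp 1]) _
      rw [← Real.exp_nat_mul, mul_one] at c2
      have c3 : 2 * ((2 ^ j : ℕ) : ℝ) ≤ (2 : ℝ) ^ (J + 1) := by exact_mod_cast c1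
      push_cast at c2 c3 ⊢
      linarith
    have a7 : ((2 ^ j : ℕ) : ℝ) ^ 2 * Real.exp (-((J : ℝ) + 1)) ≤ ((2 ^ j : ℕ) : ℝ) / 2 := by
      rw [Real.exp_neg, ← div_eq_mul_inv, div_le_div_iff₀ (Real.exp_pos _) (by norm_num)]
      have : (0 : ℝ) ≤ ((2 ^ j : ℕ) : ℝ) := by positivity
      nlinarith
    have a8 : Φ j i u v ≤ ∑ j ∈ range J, Φ j i u v :=
      single_le_sum (f := fun j => Φ j i u v) (fun j _ => (hΦ j i).nonneg _ _) (mem_range.2 a4)
    have a9 : E ≤ 10 * 2 ^ j := by omega
    have a10 : (E : ℝ) ≤ 10 * ((2 ^ j : ℕ) : ℝ) := by exact_mod_cast a9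
    linarith
  refine ⟨fun u v => b * (if T (b * L) u = T (b * L) v then 0 else 1) +
      D2 (T (b * L) u) (T (b * L) v),
    ((isCut_T (b * L)).smul b (by positivity)).add (hD2c.comp (T (b * L))), fun u v => ?_,
    fun u v => ?_, fun u v huv => ?_⟩
  · have a1 := ite_T_le (b * L) u v
    have a2 := hD2c.le_ED _ hstep (T (b * L) u) (T (b * L) v)
    have a3 : (ED (T (b * L) u) (T (b * L) v) : ℝ) ≤ 2 * ED u v := by
      exact_mod_cast ED_T_le (b * L) u v
    have a4 : 0 ≤ J * (2 * b + 80 * ((J : ℝ) + 1) * α) := by positivity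
    have a5 := mul_le_mul_of_nonneg_left a3 a4
    have a6 := mul_le_mul_of_nonneg_left a1 (show (0 : ℝ) ≤ b by positivity)
    dsimp only
    linarith
  · have a1 : ED (T (b * L) u) (T (b * L) v) ≤ ∑ i ∈ range b,
        ED (T L ((T (b * L) u).drop (i * L))) (T L ((T (b * L) v).drop (i * L))) := by
      have := ED_flatMap_range (fun i => T L ((T (b * L) u).drop (i * L)))
        (fun i => T L ((T (b * L) v).drop (i * L))) b
      rwa [← T_blocks, ← T_blocks, T_T _ _ le_rfl, T_T _ _ le_rfl] at this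
    have a2 : (ED (T (b * L) u) (T (b * L) v) : ℝ) ≤ ∑ i ∈ range b,
        (ED (T L ((T (b * L) u).drop (i * L))) (T L ((T (b * L) v).drop (i * L))) : ℝ) := by
      exact_mod_cast a1
    refine a2.trans ((sum_le_sum fun i _ => hblock i _ _).trans (le_of_eq ?_))
    rw [← mul_sum, sum_add_distrib, sum_const, card_range, nsmul_eq_mul, sum_comm]
  · simp only [huv, if_true, mul_zero, zero_add]
    exact hD2c.self _

theorem Good.mono {L : ℕ} {α α' : ℝ} (h : Good L α) (hα : α ≤ α') : Good L α' := by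
  obtain ⟨D, h1, h2, h3, h4⟩ := h
  exact ⟨D, h1, fun u v => (h2 u v).trans (mul_le_mul_of_nonneg_right hα (by positivity)), h3, h4⟩

theorem good_pow (b J : ℕ) (hb : 1 ≤ b) (hJ : 1 ≤ J) :
    ∀ k, b ^ k < 2 ^ J → Good (b ^ k) (b * (400 * (J : ℝ) ^ 2) ^ k) := by
  have hb' : (1 : ℝ) ≤ b := by exact_mod_cast hb
  have hJ' : (1 : ℝ) ≤ J := by exact_mod_cast hJ
  intro k
  induction k with
  | zero => intro _; simpa using good_one.mono hb'
  | succ k ih =>
    intro hk
    have h1 : b ^ k < 2 ^ J := lt_of_le_of_lt (Nat.pow_le_pow_right hb (Nat.le_succ k)) hk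
    rw [pow_succ' b k]
    refine (good_step (b ^ k) b J _ (by positivity) h1 (by positivity) (ih h1)).mono ?_
    have h2 : (1 : ℝ) ≤ (400 * (J : ℝ) ^ 2) ^ k := one_le_pow₀ (by nlinarith)
    rw [pow_succ (400 * (J : ℝ) ^ 2) k]
    generalize (400 * (J : ℝ) ^ 2) ^ k = A at h2
    have h3 : (1 : ℝ) + 4 * J ≤ 80 * J ^ 2 * A := by nlinarith
    have h4 : (J : ℝ) * (J + 1) ≤ 2 * J ^ 2 := by nlinarith
    have h5 := mul_le_mul_of_nonneg_left h3 (show (0 : ℝ) ≤ b by positivity)
    have h6 := mul_le_mul_of_nonneg_left h4 (show (0 : ℝ) ≤ 160 * b * A by positivity)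
    nlinarith

theorem c1_le_of_good (n L : ℕ) (α : ℝ) (hα : 0 ≤ α) (hn : n ≤ L) (h : Good L α) :
    c1 (Fin n → Bool) (fun x y => (ED (List.ofFn x) (List.ofFn y) : ℝ)) ≤ α * 40 := by
  obtain ⟨D, hD, hDu, hDl, -⟩ := h
  obtain ⟨f, hf⟩ := (hD.comp (fun x : Fin n → Bool => List.ofFn x)).embed
  have hl : ∀ x y : Fin n → Bool, (ED (List.ofFn x) (List.ofFn y) : ℝ) ≤ 40 * ‖f x - f y‖ := by
    intro x y
    have a1 := ED_T_le n (T L (List.ofFn x)) (T L (List.ofFn y))
    have a2 : ∀ z : Fin n → Bool, T n (List.ofFn z) = List.ofFn z := fun z => by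
      simpa using T_self (List.ofFn z)
    rw [T_T _ _ hn, T_T _ _ hn, a2, a2] at a1
    have a3 : (ED (List.ofFn x) (List.ofFn y) : ℝ) ≤
        2 * ED (T L (List.ofFn x)) (T L (List.ofFn y)) := by exact_mod_cast a1
    have a4 := hDl (List.ofFn x) (List.ofFn y)
    rw [hf]
    linarith
  have hpos : ∀ x y : Fin n → Bool, x ≠ y → 0 < ‖f x - f y‖ := fun x y hxy => by
    have := ED_ofFn_pos n x y hxy
    have := hl x y
    linarith
  have hinj : Function.Injective f := fun x y hxy => by
    by_contra hne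
    have := hpos x y hne
    rw [hxy, sub_self, norm_zero] at this
    exact lt_irrefl _ this
  refine ciInf_le_of_le ⟨0, ?_⟩ ⟨f, hinj⟩ (mul_le_mul ?_ ?_ ?_ hα)
  · rintro _ ⟨g, rfl⟩
    exact mul_nonneg (Real.iSup_nonneg fun p => by positivity)
      (Real.iSup_nonneg fun p => by positivity)
  · refine Real.iSup_le (fun p => ?_) hα
    rw [div_le_iff₀ (ED_ofFn_pos n _ _ p.2), hf]
    exact hDu _ _
  · refine Real.iSup_le (fun p => ?_) (by norm_num)
    rw [div_le_iff₀ (hpos _ _ p.2)]
    exact hl _ _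
  · exact Real.iSup_nonneg fun p => by positivity

theorem upper_of_log (n : ℕ) (hn : 28 ≤ Real.log n) :
    c1 (Fin n → Bool) (fun x y => (ED (List.ofFn x) (List.ofFn y) : ℝ)) ≤
      Real.exp (16 * Real.sqrt (Real.log n * Real.log (Real.log n))) := by
  have hnpos : (0 : ℝ) < n := by
    rcases Nat.eq_zero_or_pos n with h | h
    · rw [h] at hn; norm_num at hn
    · exact_mod_cast h
  have hexp : Real.exp (Real.log n) = n := Real.exp_log hnpos
  generalize Real.log n = l at hn hexp
  have hl0 : 0 < l := by linarith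
  set m := Real.log l with hm
  have hm1 : 1 ≤ m := by
    rw [hm, Real.le_log_iff_exp_le hl0]
    linarith [Real.exp_one_lt_d9]
  have hml : m ≤ l := (Real.log_le_sub_one_of_pos hl0).trans (by linarith)
  have hel : Real.exp m = l := Real.exp_log hl0
  set S := Real.sqrt (l * m) with hS
  have hS2 : S * S = l * m := Real.mul_self_sqrt (by positivity)
  have hS0 : 0 ≤ S := Real.sqrt_nonneg _
  have hSm : m ≤ S := by nlinarith
  have hSl : S ≤ l := by nlinarith
  have hS1 : 1 ≤ S := hm1.trans hSm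
  have hSpos : 0 < S := by linarith
  set b := ⌈Real.exp S⌉₊ with hb
  set k := ⌈l / S⌉₊ with hk
  set J := ⌈6 * l⌉₊ with hJ
  have hb1 : Real.exp S ≤ b := Nat.le_ceil _
  have hb2 : (b : ℝ) ≤ Real.exp (S + 1) := by
    have a1 : (b : ℝ) < Real.exp S + 1 := Nat.ceil_lt_add_one (Real.exp_pos _).le
    have a2 : 1 ≤ Real.exp S := Real.one_le_exp hS0
    have a3 : 2 ≤ Real.exp 1 := by linarith [Real.add_one_le_exp 1]
    rw [Real.exp_add]
    nlinarith
  have hk1 : l / S ≤ k := Nat.le_ceil _
  have hk2 : (k : ℝ) ≤ l / S + 1 := (Nat.ceil_lt_add_one (by positivity)).le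
  have hk1' : l ≤ k * S := by rwa [div_le_iff₀ hSpos] at hk1
  have hk2' : k * S ≤ l + S := by
    have := mul_le_mul_of_nonneg_right hk2 hS0
    rwa [add_mul, div_mul_cancel₀ _ hSpos.ne', one_mul] at this
  have hk0 : (0 : ℝ) ≤ k := by positivity
  have hJ1 : 6 * l ≤ J := Nat.le_ceil _
  have hJ2 : (J : ℝ) ≤ 7 * l := by
    have : (J : ℝ) < 6 * l + 1 := Nat.ceil_lt_add_one (by positivity)
    linarith
  have hb0 : 1 ≤ b := by
    have : (1 : ℝ) ≤ b := (Real.one_le_exp hS0).trans hb1
    exact_mod_cast this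
  have hJ0 : 1 ≤ J := by
    have : (1 : ℝ) ≤ J := by linarith
    exact_mod_cast this
  have h1 : n ≤ b ^ k := by
    have : (n : ℝ) ≤ (b : ℝ) ^ k := by
      rw [← hexp]
      refine le_trans ?_ (pow_le_pow_left₀ (Real.exp_pos _).le hb1 k)
      rw [← Real.exp_nat_mul]
      exact Real.exp_le_exp.2 hk1'
    exact_mod_cast this
  have h2 : b ^ k < 2 ^ J := by
    have : (b : ℝ) ^ k < 2 ^ J := by
      refine lt_of_le_of_lt (pow_le_pow_left₀ (by positivity) hb2 k) ?_
      rw [← Real.exp_nat_mul, ← Real.exp_log (show (0 : ℝ) < 2 ^ J by positivity), Real.log_pow]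
      refine Real.exp_lt_exp.2 ?_
      have a1 := Real.log_two_gt_d9
      have a2 : (k : ℝ) ≤ k * S := by nlinarith
      nlinarith
    exact_mod_cast this
  refine (c1_le_of_good n _ _ (by positivity) h1 (good_pow b J hb0 hJ0 k h2)).trans ?_
  have h3 : 400 * (J : ℝ) ^ 2 ≤ Real.exp (5 * m) := by
    have a1 : Real.exp (5 * m) = l ^ 5 := by
      rw [← hel, ← Real.exp_nat_mul]
      norm_num
    have a2 : (J : ℝ) ^ 2 ≤ (7 * l) ^ 2 := pow_le_pow_left₀ (by positivity) hJ2 2
    have a3 : (28 : ℝ) ^ 3 ≤ l ^ 3 := pow_le_pow_left₀ (by norm_num) hn 3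
    have a4 : 0 ≤ l ^ 2 := by positivity
    rw [a1, show l ^ 5 = l ^ 3 * l ^ 2 by ring]
    nlinarith
  have h4 : (400 * (J : ℝ) ^ 2) ^ k ≤ Real.exp (10 * S) := by
    refine (pow_le_pow_left₀ (by positivity) h3 k).trans ?_
    rw [← Real.exp_nat_mul]
    refine Real.exp_le_exp.2 ?_
    have a1 : k * m * S ≤ 2 * S * S := by nlinarith
    have a2 : k * m ≤ 2 * S := le_of_mul_le_mul_right a1 hSpos
    linarith
  have h5 : (40 : ℝ) ≤ Real.exp 4 := by
    have a1 : Real.exp 4 = Real.exp 1 ^ 4 := by rw [← Real.exp_nat_mul]; norm_num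
    have a2 : (2.7 : ℝ) ^ 4 ≤ Real.exp 1 ^ 4 :=
      pow_le_pow_left₀ (by norm_num) (by linarith [Real.exp_one_gt_d9]) 4
    rw [a1]
    linarith [show (40 : ℝ) ≤ 2.7 ^ 4 by norm_num]
  calc (b : ℝ) * (400 * (J : ℝ) ^ 2) ^ k * 40
      ≤ Real.exp (S + 1) * Real.exp (10 * S) * Real.exp 4 := by gcongr
    _ = Real.exp (11 * S + 5) := by rw [← Real.exp_add, ← Real.exp_add]; ring_nf
    _ ≤ _ := Real.exp_le_exp.2 (by linarith)

theorem two_sided : ∃ c C : ℝ, 0 < c ∧ 0 < C ∧ ∃ N : ℕ, ∀ n ≥ N,
    Real.exp (c * Real.sqrt (Real.log n * Real.log (Real.log n))) ≤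
        c1 (Fin n → Bool) (fun x y => (ED (List.ofFn x) (List.ofFn y) : ℝ)) ∧
      c1 (Fin n → Bool) (fun x y => (ED (List.ofFn x) (List.ofFn y) : ℝ)) ≤
        Real.exp (C * Real.sqrt (Real.log n * Real.log (Real.log n))) := by
  obtain ⟨c, hc, N, hN⟩ := lower_bound
  refine ⟨c, 16, hc, by norm_num, max N ⌈Real.exp 28⌉₊, fun n hn =>
    ⟨hN n (le_of_max_le_left hn), upper_of_log n ?_⟩⟩
  have h1 : Real.exp 28 ≤ n := Nat.ceil_le.1 (le_of_max_le_right hn)
  rw [Real.le_log_iff_exp_le (lt_of_lt_of_le (Real.exp_pos _) h1)]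
  exact h1

end Vale.Agent.P238
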